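import Vale.Agent.N136.End

set_option linter.all false

/-! Boundary determination to first order from combinations of singular solutions of many
scales. -/

open MeasureTheory Filter Topology
open scoped ContDiff InnerProductSpace

namespace Vale.Agent.N136

open Vale.Agent.P136 Vale.Agent.P136.BD Vale.Agent.P136.BD.Rough
open Vale.Agent.P136.Exist.Rough (SC)

theorem scale_near {ρ r d w : ℝ} (hρ : 0 < ρ) (hr : 0 < r) (hd : 0 ≤ d) (hw : 0 < w) (hw1 : w ≤ 1)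
    (h1 : w * ρ ≤ r) (h2 : w * r ≤ ρ) :
    ρ ^ 4 * ((ρ + d) ^ 6)⁻¹ ≤ (w ^ 10)⁻¹ * (r ^ 4 * ((r + d) ^ 6)⁻¹) := by
  have h3 : w * (r + d) ≤ ρ + d := by nlinarith
  have h4 : ρ ≤ r / w := by rw [le_div_iff₀ hw]; linarith
  calc ρ ^ 4 * ((ρ + d) ^ 6)⁻¹ ≤ (r / w) ^ 4 * ((w * (r + d)) ^ 6)⁻¹ := by gcongr
    _ = _ := by field_simp

theorem scale_far {ρ r d θ : ℝ} (hρ : 0 < ρ) (hr : 0 < r) (hd : r ≤ d) (hθ : 0 < θ) (hθ1 : θ ≤ 1)
    (h : ρ ≤ θ * r ∨ r ≤ θ * ρ) : ρ ^ 4 * ((ρ + d) ^ 6)⁻¹ ≤ (θ / r) ^ 2 := by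
  rcases h with h | h
  · calc ρ ^ 4 * ((ρ + d) ^ 6)⁻¹ ≤ (θ * r) ^ 4 * (r ^ 6)⁻¹ := by gcongr; linarith
      _ = θ ^ 2 * (θ / r) ^ 2 := by field_simp
      _ ≤ 1 ^ 2 * (θ / r) ^ 2 := by gcongr
      _ = _ := by ring
  · calc ρ ^ 4 * ((ρ + d) ^ 6)⁻¹ ≤ ρ ^ 4 * (ρ ^ 6)⁻¹ := by gcongr; linarith
      _ = (1 / ρ) ^ 2 := by field_simp
      _ ≤ _ := by
        gcongr ?_ ^ 2
        rw [div_le_div_iff₀ hρ hr]
        linarith

theorem exists_top {N : ℕ} {c : Fin N → ℝ} (h : ‖c‖ = 1) : (∀ k, |c k| ≤ 1) ∧ ∃ k, |c k| = 1 := by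
  have h1 : ∀ k, |c k| ≤ 1 := fun k => h ▸ norm_le_pi_norm c k
  refine ⟨h1, by_contra fun h2 => ?_⟩
  exact ((pi_norm_lt_iff one_pos).2 fun k =>
    lt_of_le_of_ne (h1 k) fun e => h2 ⟨k, e⟩).ne h

/-- One-sided comparison. -/
theorem one_fam {N : ℕ} {Ω : Set E3} (ho : IsOpen Ω) (hb : Bornology.IsBounded Ω)
    {lam₁ mu₁ lam₂ mu₂ : E3 → ℝ} (h1 : SC Ω lam₁ mu₁)
    (h2 : SC Ω lam₂ mu₂) (hF : Fam N Ω lam₁ mu₁ lam₂ mu₂) {x0 n : E3} (hn : ‖n‖ = 1)
    (ht : TanAt Ω x0 n) {Γ : Fin 3 → E3 → ℝ} (hΓ : ∀ j, HomOut 2 (Γ j))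
    (hfrz : ∀ w : E3, 1 < ‖w‖ → ∀ j, frz (lam₂ x0) (mu₂ x0) Γ j w = 0)
    {q : (Fin 3 → Fin 3 → ℝ) → ℝ} (hqc : Continuous q) (hq3 : ∀ A, q A ≤ 3 * eq2 A)
    {m : Fin 3 → Fin 3 → ℝ} (hqm : ∀ A, (∑ i, ∑ j, m i j * A i j) ^ 2 ≤ q A)
    (hne : ∑ i, ∑ j, m i j * pd i (Γ j) (-((3 / (1 / 6) : ℝ) • n)) ≠ 0)
    {τ : ℝ} (hτ : ∀ w : E3, 1 < ‖w‖ → τ * ∑ i, pd i (Γ i) w = 0)
    {f : E3 → ℝ} (hf : ContDiff ℝ ∞ f) {κ M : ℝ} (hκ : 0 < κ) (hM : 0 ≤ M)
    (hD : ∀ x ∈ Ω, ∀ A : Fin 3 → Fin 3 → ℝ, τ * ∑ i, A i i = 0 →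
      fq (lam₁ x - lam₂ x) (mu₁ x - mu₂ x) A A ≤ κ * (f x * q A) + M * (‖x - x0‖ ^ 2 * eq2 A)) :
    0 ≤ f x0 ∧ ((∀ z ∈ frontier Ω, f z = 0) → fderiv ℝ f x0 n ≤ 0) := by
  have hm : MeasurableSet Ω := ho.measurableSet
  obtain ⟨r0, hr0, hg1, hg2, hg3, hg4⟩ := tan_geom ho hn ht
  generalize hc' : (1 / 6 : ℝ) = c at hg1 hne
  have hc : 0 < c := by rw [← hc']; norm_num
  have hc1 : c ≤ 1 := by rw [← hc']; norm_num
  obtain ⟨CE, hCE, hEI⟩ := energy_at ho hb h1 h2 x0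
  obtain ⟨Ce, hCe, herr⟩ := bd_err hb x0
  obtain ⟨C6, hC6, hC6b⟩ := eq2_bound hΓ
  have hΓs : ∀ j, ContDiff ℝ ∞ (Γ j) := fun j => (hΓ j).smooth
  have cpd : ∀ i j, Continuous (pd i (Γ j)) := fun i j =>
    (pd_contDiff_infty (hΓs j) i).continuous
  set g : E3 → ℝ := fun w => ∑ i, ∑ j, m i j * pd i (Γ j) w with hg
  have hgc : Continuous g := by rw [hg]; fun_prop
  obtain ⟨γ, hγ, hγ'⟩ : ∃ γ > 0, γ < |g (-((3 / c) • n))| :=
    ⟨_, half_pos (abs_pos.2 hne), half_lt_self (abs_pos.2 hne)⟩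
  obtain ⟨ε', hε', hQε⟩ : ∃ ε' > 0, ∀ w, ‖w - (-((3 / c) • n))‖ < ε' → γ ≤ |g w| := by
    have := hgc.abs.continuousAt (x := -((3 / c) • n)) |>.eventually (lt_mem_nhds hγ')
    rw [Metric.eventually_nhds_iff] at this
    obtain ⟨ε', h, h'⟩ := this
    exact ⟨ε', h, fun w hw => (h' (by rw [dist_eq_norm]; exact hw)).le⟩
  set r1 : ℝ := min r0 1 with hr1
  have hr1pos : 0 < r1 := lt_min hr0 one_pos
  have hr10 : ∀ r, r < r1 → r < r0 := fun r h => h.trans_le (min_le_left _ _)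
  have hr11 : ∀ r, r < r1 → r < 1 := fun r h => h.trans_le (min_le_right _ _)
  have hout : ∀ r, 0 < r → r < r1 → ∀ x ∈ Ω, (r + ‖x - x0‖) / r <
      ‖(c * r)⁻¹ • (x - (x0 + r • n))‖ := by
    intro r hr hr' x hx
    rw [norm_smul, norm_inv, Real.norm_of_nonneg (by positivity), inv_mul_eq_div,
      div_lt_div_iff₀ hr (by positivity)]
    have := mul_lt_mul_of_pos_right (hg1 r hr (hr10 r hr') x hx) hr
    linarith
  have hout1 : ∀ r, 0 < r → r < r1 → ∀ x ∈ Ω, 1 < ‖(c * r)⁻¹ • (x - (x0 + r • n))‖ := by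
    intro r hr hr' x hx
    refine lt_of_le_of_lt ?_ (hout r hr hr' x hx)
    rw [le_div_iff₀ hr, one_mul]
    linarith [norm_nonneg (x - x0)]
  have hdec : ∀ r, 0 < r → r < r1 → ∀ x ∈ Ω,
      (c * r)⁻¹ ^ 2 * eq2 (fun i j => pd i (Γ j) ((c * r)⁻¹ • (x - (x0 + r • n)))) ≤
        (C6 / c ^ 2) * (r ^ 4 * ((r + ‖x - x0‖) ^ 6)⁻¹) := by
    intro r hr hr' x hx
    have h3 := hout r hr hr' x hx
    have hpos : 0 < r + ‖x - x0‖ := by positivity
    have h5 : ((1 + ‖(c * r)⁻¹ • (x - (x0 + r • n))‖) ^ 6)⁻¹ ≤ (((r + ‖x - x0‖) / r) ^ 6)⁻¹ :=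
      inv_anti₀ (by positivity) (pow_le_pow_left₀ (by positivity) (by linarith) 6)
    calc _ ≤ (c * r)⁻¹ ^ 2 * (C6 * (((r + ‖x - x0‖) / r) ^ 6)⁻¹) :=
          mul_le_mul_of_nonneg_left ((hC6b _).trans (mul_le_mul_of_nonneg_left h5 hC6.le))
            (by positivity)
      _ = _ := by field_simp
  -- the ratio of the scales
  obtain ⟨B, hB, hB2⟩ : ∃ B > 0, 3 * C6 ≤ B ^ 2 := ⟨3 * C6 + 1, by positivity, by nlinarith⟩
  obtain ⟨θ, hθ, hθ1, hθγ⟩ : ∃ θ > 0, θ ≤ 1 ∧ N * (B * θ) ≤ γ / 2 := by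
    refine ⟨γ / (2 * N * B + γ), by positivity, (div_le_one (by positivity)).2
      (le_add_of_nonneg_left (by positivity)), ?_⟩
    rw [← mul_div_assoc, ← mul_div_assoc, div_le_div_iff₀ (by positivity) two_pos]
    nlinarith [sq_nonneg γ]
  set E : ℝ := N * (N * (C6 / c ^ 2 * ((θ ^ N) ^ 10)⁻¹)) with hE
  have hE0 : 0 ≤ E := by positivity
  have key : ∀ s, 0 < s → s < r1 → ∃ r, 0 < r ∧ r ≤ s ∧ ∃ P : E3 → ℝ, Continuous P ∧
      (∀ x ∈ Ω, 0 ≤ P x ∧ P x ≤ (3 * E) * (r ^ 4 * ((r + ‖x - x0‖) ^ 6)⁻¹)) ∧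
      (∀ x ∈ Metric.ball (x0 - (2 * r) • n) (min 1 (c * ε') * r),
        (γ / (2 * c)) ^ 2 * (r ^ 2)⁻¹ ≤ P x) ∧
      - ((CE + M) * E * Ce / κ) * r ^ 3 ≤ ∫ x in Ω, f x * P x := by
    intro s hs hs1
    set ρ : Fin N → ℝ := fun k => θ ^ (k : ℕ) * s with hρ
    have hρ0 : ∀ k, 0 < ρ k := fun k => by positivity
    have hρs : ∀ k, ρ k ≤ s := fun k => mul_le_of_le_one_left hs.le (pow_le_one₀ hθ.le hθ1)
    have hρN : ∀ k, θ ^ N * s ≤ ρ k := fun k =>
      mul_le_mul_of_nonneg_right (pow_le_pow_of_le_one hθ.le hθ1 k.2.le) hs.le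
    have hρ1 : ∀ k, ρ k < r1 := fun k => (hρs k).trans_lt hs1
    have hρlt : ∀ k l : Fin N, k < l → ρ l ≤ θ * ρ k := fun k l h => by
      rw [hρ, ← mul_assoc, ← pow_succ']
      exact mul_le_mul_of_nonneg_right (pow_le_pow_of_le_one hθ.le hθ1 h) hs.le
    set z : Fin N → E3 → E3 := fun k x => (c * ρ k)⁻¹ • (x - (x0 + ρ k • n)) with hz
    set Γs : Fin N → Fin 3 → E3 → ℝ := fun k j => scal (c * ρ k)⁻¹ (x0 + ρ k • n) (Γ j) with hΓd
    have hΓrs : ∀ k j, ContDiff ℝ ∞ (Γs k j) := fun k j => scal_contDiff (hΓs j)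
    have hpd : ∀ k i j x, pd i (Γs k j) x = (c * ρ k)⁻¹ * pd i (Γ j) (z k x) := by
      intro k i j x
      simp only [hΓd]
      rw [pd_scal (hΓs j)]
      rfl
    obtain ⟨a, ha, hG, -⟩ := hF (fun k => smoothH1 hb (Γs k) (hΓrs k))
      fun k => smoothH1 hb (Γs k) (hΓrs k)
    obtain ⟨ha1, k₀, hk₀⟩ := exists_top ha
    have hsm : ∀ j, ContDiff ℝ ∞ fun x => ∑ k, a k * Γs k j x := fun j =>
      ContDiff.sum fun k _ => contDiff_const.mul (hΓrs k j)
    have hpds : (fun i j => pd i fun x => ∑ k, a k * Γs k j x) =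
        fun i j x => ∑ k, a k * pd i (Γs k j) x := by
      funext i j x
      rw [BD.pd_sum' _ fun k _ => (BD.sm_diff (hΓrs k j) _).const_mul (a k)]
      exact Finset.sum_congr rfl fun k _ => pd_const_mul (BD.sm_diff (hΓrs k j) _) _ _
    have hE1 := hEI _ hsm (hpds ▸ hG) fun φ hφ => by
      rw [hpds, form_sum hm hb continuous_const continuous_const a
        (G := fun k i j => pd i (Γs k j)) (fun k => (smoothH1 hb (Γs k) (hΓrs k)).der_mem) (memG_test hb hφ)]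
      refine Finset.sum_eq_zero fun k _ => mul_eq_zero_of_right _ ?_
      exact frozen_of_pde (hΓrs k) (fun x hx j => by
        rw [hΓd, frz_scal hΓs, hfrz _ (hout1 _ (hρ0 k) (hρ1 k) x hx), mul_zero]) φ hφ
    set A : E3 → Fin 3 → Fin 3 → ℝ := fun x i j => ∑ k, a k * pd i (Γs k j) x with hA
    have hE2 : -CE * (∫ x in Ω, ‖x - x0‖ ^ 2 * eq2 (A x)) ≤
        ∫ x in Ω, fq (lam₁ x - lam₂ x) (mu₁ x - mu₂ x) (A x) (A x) := by
      have e : ∀ x, (fun i j => pd i (fun x => ∑ k, a k * Γs k j x) x) = A x := fun x => by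
        funext i j
        exact congrFun (congrFun (congrFun hpds i) j) x
      simpa only [e] using hE1
    have cA' : ∀ i j, Continuous fun x => A x i j := fun i j => continuous_finsetSum _ fun k _ =>
      continuous_const.mul (pd_contDiff_infty (hΓrs k j) i).continuous
    have cA : Continuous A := continuous_pi fun i => continuous_pi fun j => cA' i j
    set r := ρ k₀ with hr
    have hr0 : 0 < r := hρ0 k₀
    have heq : ∀ k, ∀ x ∈ Ω, eq2 (fun i j => pd i (Γs k j) x) ≤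
        C6 / c ^ 2 * (ρ k ^ 4 * ((ρ k + ‖x - x0‖) ^ 6)⁻¹) := fun k x hx => by
      simp only [hpd, eq2_smul]
      exact hdec _ (hρ0 k) (hρ1 k) x hx
    have hup : ∀ x ∈ Ω, eq2 (A x) ≤ E * (r ^ 4 * ((r + ‖x - x0‖) ^ 6)⁻¹) := by
      intro x hx
      refine (eq2_sum ha1 fun k i j => pd i (Γs k j) x).trans ?_
      rw [Fintype.card_fin, hE, mul_assoc]
      refine mul_le_mul_of_nonneg_left ((Finset.sum_le_card_nsmul _ _ _ fun k _ =>
        (heq k x hx).trans (mul_le_mul_of_nonneg_left (scale_near (w := θ ^ N) (hρ0 k) hr0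
          (norm_nonneg _) (by positivity) (pow_le_one₀ hθ.le hθ1) ?_ ?_) (by positivity))).trans
        (le_of_eq ?_)) (by positivity)
      · exact (mul_le_mul_of_nonneg_left (hρs k) (by positivity)).trans (hρN k₀)
      · exact (mul_le_mul_of_nonneg_left (hρs k₀) (by positivity)).trans (hρN k)
      · simp only [Finset.card_univ, Fintype.card_fin, nsmul_eq_mul]
        ring
    refine ⟨r, hr0, hρs k₀, fun x => q (A x), hqc.comp cA, fun x hx =>
      ⟨(sq_nonneg _).trans (hqm _), (hq3 _).trans (by linarith [hup x hx])⟩, fun x hx => ?_, ?_⟩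
    · rw [Metric.mem_ball, dist_eq_norm] at hx
      have hx1 : ‖x - (x0 - (2 * r) • n)‖ < r :=
        hx.trans_le (mul_le_of_le_one_left hr0.le (min_le_left _ _))
      have hxΩ : x ∈ Ω := hg2 r hr0 (hr10 r (hρ1 k₀)) (by rwa [Metric.mem_ball, dist_eq_norm])
      have hd : r ≤ ‖x - x0‖ := by
        have h3 := norm_sub_norm_le ((2 * r) • n) (x - (x0 - (2 * r) • n))
        rw [norm_smul, hn, Real.norm_of_nonneg (by positivity),
          show (2 * r) • n - (x - (x0 - (2 * r) • n)) = -(x - x0) by abel, norm_neg] at h3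
        linarith
      have h3 : γ ≤ |g (z k₀ x)| := by
        refine hQε _ ?_
        have e : z k₀ x - (-((3 / c) • n)) = (c * r)⁻¹ • (x - (x0 - (2 * r) • n)) := by
          have e2 : (3 / c) • n = (c * r)⁻¹ • ((3 * r) • n) := by
            rw [smul_smul]
            congr 1
            field_simp
          rw [e2, sub_neg_eq_add, hz, ← smul_add]
          congr 1
          module
        rw [e, norm_smul, norm_inv, Real.norm_of_nonneg (by positivity),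
          inv_mul_lt_iff₀ (by positivity)]
        refine hx.trans_le ?_
        calc min 1 (c * ε') * r ≤ (c * ε') * r :=
              mul_le_mul_of_nonneg_right (min_le_right _ _) hr0.le
          _ = c * r * ε' := by ring
      set t : Fin N → ℝ := fun k => ∑ i, ∑ j, m i j * pd i (Γs k j) x with htd
      have h4 : ∑ i, ∑ j, m i j * A x i j = ∑ k, a k * t k := by
        simp only [hA, htd, Finset.mul_sum]
        rw [Finset.sum_comm (s := (Finset.univ : Finset (Fin N)))]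
        refine Finset.sum_congr rfl fun i _ => ?_
        rw [Finset.sum_comm (s := (Finset.univ : Finset (Fin N)))]
        exact Finset.sum_congr rfl fun j _ => Finset.sum_congr rfl fun k _ => by ring
      have h5 : γ / (c * r) ≤ |a k₀ * t k₀| := by
        have : t k₀ = (c * r)⁻¹ * g (z k₀ x) := by
          simp only [htd, hpd, hg, Finset.mul_sum]
          exact Finset.sum_congr rfl fun i _ => Finset.sum_congr rfl fun j _ => by ring
        rw [abs_mul, hk₀, one_mul, this, abs_mul, abs_of_pos (by positivity), div_eq_inv_mul]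
        exact mul_le_mul_of_nonneg_left h3 (by positivity)
      have h6 : ∀ k ∈ Finset.univ.erase k₀, |a k * t k| ≤ B * θ / (c * r) := by
        intro k hk
        have h7 := scale_far (hρ0 k) hr0 hd hθ hθ1 ((lt_or_gt_of_ne
          (Finset.ne_of_mem_erase hk)).symm.imp (hρlt _ _) (hρlt _ _))
        have h8 : t k ^ 2 ≤ (B * θ / (c * r)) ^ 2 :=
          calc t k ^ 2 ≤ 3 * eq2 (fun i j => pd i (Γs k j) x) := (hqm _).trans (hq3 _)
            _ ≤ 3 * (C6 / c ^ 2 * (θ / r) ^ 2) := mul_le_mul_of_nonneg_left ((heq k x hxΩ).trans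
              (mul_le_mul_of_nonneg_left h7 (by positivity))) (by norm_num)
            _ = 3 * C6 * (θ / (c * r)) ^ 2 := by field_simp
            _ ≤ B ^ 2 * (θ / (c * r)) ^ 2 := by gcongr
            _ = _ := by ring
        rw [abs_mul]
        exact (mul_le_of_le_one_left (abs_nonneg _) (ha1 k)).trans
          (abs_le_of_sq_le_sq' h8 (by positivity) |> abs_le.2)
      have h9 : |∑ k ∈ Finset.univ.erase k₀, a k * t k| ≤ γ / 2 / (c * r) := by
        refine (Finset.abs_sum_le_sum_abs _ _).trans ((Finset.sum_le_card_nsmul _ _ _ h6).trans ?_)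
        rw [nsmul_eq_mul, ← mul_div_assoc]
        refine div_le_div_of_nonneg_right (le_trans (mul_le_mul_of_nonneg_right ?_
          (by positivity)) hθγ) (by positivity)
        exact_mod_cast (Finset.card_erase_le).trans (by simp)
      have h10 : γ / 2 / (c * r) ≤ |∑ k, a k * t k| := by
        rw [← Finset.add_sum_erase _ _ (Finset.mem_univ k₀)]
        have := abs_sub_abs_le_abs_add (a k₀ * t k₀) (∑ k ∈ Finset.univ.erase k₀, a k * t k)
        have e : γ / (c * r) = γ / 2 / (c * r) + γ / 2 / (c * r) := by ring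
        linarith
      refine le_trans ?_ (hqm (A x))
      rw [h4, ← sq_abs (∑ k, a k * t k)]
      refine le_trans (le_of_eq ?_) (pow_le_pow_left₀ (by positivity) h10 2)
      field_simp
    · have cl1 := h1.lam_smooth.continuous
      have cm1 := h1.mu_smooth.continuous
      have cl2 := h2.lam_smooth.continuous
      have cm2 := h2.mu_smooth.continuous
      have iP : IntegrableOn (fun x => f x * q (A x)) Ω :=
        integrableOn_of_cont hb (hf.continuous.mul (hqc.comp cA))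
      have iN : IntegrableOn (fun x => ‖x - x0‖ ^ 2 * eq2 (A x)) Ω :=
        integrableOn_of_cont hb (by unfold eq2; fun_prop)
      have hcmp : ∫ x in Ω, fq (lam₁ x - lam₂ x) (mu₁ x - mu₂ x) (A x) (A x) ≤
          κ * (∫ x in Ω, f x * q (A x)) + M * ∫ x in Ω, ‖x - x0‖ ^ 2 * eq2 (A x) := by
        rw [← integral_const_mul, ← integral_const_mul, ← integral_add (iP.const_mul κ)
          (iN.const_mul M)]
        refine setIntegral_mono_on (integrableOn_of_cont hb (by unfold fq; fun_prop))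
          ((iP.const_mul κ).add (iN.const_mul M)) hm fun x hx => hD x hx _ ?_
        simp only [hA, hpd]
        rw [Finset.sum_comm, Finset.mul_sum]
        refine Finset.sum_eq_zero fun k _ => ?_
        rw [← Finset.mul_sum, ← Finset.mul_sum]
        linear_combination a k * (c * ρ k)⁻¹ * hτ _ (hout1 _ (hρ0 k) (hρ1 k) x hx)
      have hmaj : ∫ x in Ω, ‖x - x0‖ ^ 2 * eq2 (A x) ≤ E * (Ce * r ^ 3) :=
        calc _ ≤ ∫ x in Ω, E * (‖x - x0‖ ^ 2 * (r ^ 4 * ((r + ‖x - x0‖) ^ 6)⁻¹)) := by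
              refine setIntegral_mono_on iN (integrableOn_of_cont hb (continuous_const.mul
                (Continuous.mul (by fun_prop) (maj_continuous x0 hr0)))) hm fun x hx => ?_
              exact (mul_le_mul_of_nonneg_left (hup x hx) (sq_nonneg _)).trans_eq (by ring)
          _ = E * _ := integral_const_mul _ _
          _ ≤ _ := mul_le_mul_of_nonneg_left (herr r hr0 (hr11 r (hρ1 k₀))) hE0
      have h4 := mul_le_mul_of_nonneg_left hmaj (add_nonneg hCE.le hM)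
      rw [← neg_div, div_mul_eq_mul_div, div_le_iff₀ hκ]
      linarith [hE2.trans hcmp]
  choose! r hr0' hrs P hP using key
  refine bd_freq ho hb (ht.frontier ho hn) hn hr1pos (fun r hr hr' => hg2 r hr (hr10 r hr')) hg3
    hg4 hf (fun ρ => P (Function.invFunOn r (Set.Ioo 0 r1) ρ)) (S := r '' Set.Ioo 0 r1)
    (ε := min 1 (c * ε')) (c1 := (γ / (2 * c)) ^ 2) (C1 := 3 * E) (C2 := (CE + M) * E * Ce / κ)
    (fun s hs => ?_) (lt_min one_pos (by positivity)) (min_le_left _ _) (by positivity) ?_ ?_ ?_ ?_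
  · have h3 : 0 < min s r1 / 2 := by positivity
    have h4 := half_lt_self (lt_min hs hr1pos)
    have h5 := h4.trans_le (min_le_right _ _)
    exact ⟨_, ⟨_, ⟨h3, h5⟩, rfl⟩, hr0' _ h3 h5,
      (hrs _ h3 h5).trans_lt (h4.trans_le (min_le_left _ _))⟩
  all_goals
    intro ρ hρ _ _
    obtain ⟨h3, h4⟩ := Function.invFunOn_pos hρ
    have h5 := hP _ h3.1 h3.2
    rw [h4] at h5
  exacts [h5.1, h5.2.1, h5.2.2.1, h5.2.2.2]

theorem two_sided {Ω : Set E3} (ho : IsOpen Ω)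
    (hden : frontier Ω ⊆ closure {x | ∃ n : E3, ‖n‖ = 1 ∧ TanAt Ω x n}) {f g : E3 → ℝ}
    (hf : ContDiff ℝ ∞ f) (hg : ContDiff ℝ ∞ g)
    (h1 : ∀ x n, ‖n‖ = 1 → TanAt Ω x n → 0 ≤ f x - g x ∧ ((∀ z ∈ frontier Ω, f z - g z = 0) →
      fderiv ℝ (fun y => f y - g y) x n ≤ 0))
    (h2 : ∀ x n, ‖n‖ = 1 → TanAt Ω x n → 0 ≤ g x - f x ∧ ((∀ z ∈ frontier Ω, g z - f z = 0) →
      fderiv ℝ (fun y => g y - f y) x n ≤ 0)) :
    ∀ x ∈ frontier Ω, f x = g x ∧ fderiv ℝ f x = fderiv ℝ g x := by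
  have e0 : ∀ x ∈ frontier Ω, f x = g x := fun x hx =>
    closure_minimal (fun y hy => by
      obtain ⟨n, hn, hy⟩ := hy
      show f y = g y
      linarith [(h1 y n hn hy).1, (h2 y n hn hy).1])
      (isClosed_eq hf.continuous hg.continuous) (hden hx)
  refine fun x hx => ⟨e0 x hx, closure_minimal (fun y hy => ?_) (isClosed_eq
    (hf.continuous_fderiv (by simp)) (hg.continuous_fderiv (by simp))) (hden hx)⟩
  obtain ⟨n, hn, hy⟩ := hy
  show fderiv ℝ f y = fderiv ℝ g y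
  have z1 : ∀ z ∈ frontier Ω, f z - g z = 0 := fun z hz => sub_eq_zero.2 (e0 z hz)
  have a1 := (h1 y n hn hy).2 z1
  have a2 := (h2 y n hn hy).2 fun z hz => sub_eq_zero.2 (e0 z hz).symm
  obtain ⟨-, -, -, -, -, a3⟩ := tan_geom ho hn hy
  have a4 := a3 _ (hf.sub hg) z1
  rw [fderiv_fun_sub (BD.sm_diff hf y) (BD.sm_diff hg y)] at a1 a4
  rw [fderiv_fun_sub (BD.sm_diff hg y) (BD.sm_diff hf y)] at a2
  ext v
  have a5 := a4 (v - ⟪n, v⟫_ℝ • n) (by
    rw [inner_sub_right, inner_smul_right, real_inner_self_eq_norm_sq, hn]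
    ring)
  simp only [map_sub, map_smul, ContinuousLinearMap.sub_apply, smul_eq_mul] at a1 a2 a5
  have a6 : fderiv ℝ f y n - fderiv ℝ g y n = 0 := by linarith
  rw [a6] at a5
  linarith

variable {N : ℕ} {Ω : Set E3} {lam₁ mu₁ lam₂ mu₂ : E3 → ℝ}

theorem mu_fam (ho : IsOpen Ω) (hb : Bornology.IsBounded Ω) (h1 : SC Ω lam₁ mu₁)
    (h2 : SC Ω lam₂ mu₂) (hF : Fam N Ω lam₁ mu₁ lam₂ mu₂) (x0 n : E3) (hn : ‖n‖ = 1)
    (ht : TanAt Ω x0 n) : 0 ≤ mu₁ x0 - mu₂ x0 ∧ ((∀ z ∈ frontier Ω, mu₁ z - mu₂ z = 0) →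
      fderiv ℝ (fun x => mu₁ x - mu₂ x) x0 n ≤ 0) := by
  have hn2 : ∑ i, n i ^ 2 = 1 := by
    have := EuclideanSpace.norm_sq_eq n
    simpa [hn] using this.symm
  refine one_fam ho hb h1 h2 hF hn ht gMu_hom (fun w hw j => gMu_frz _ _ hw j) (q := eq2)
    (by unfold eq2; fun_prop) (fun A => by linarith [eq2_nonneg A]) (m := fun i j => n i * n j)
    (fun A => ?_) ?_ (τ := 1) (fun w hw => by rw [gMu_div hw, mul_zero])
    (h1.mu_smooth.sub h2.mu_smooth) (κ := 2) (M := 0) two_pos le_rfl fun x _ A hA => ?_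
  · have h3 := Finset.sum_mul_sq_le_sq_mul_sq Finset.univ (fun p : Fin 3 × Fin 3 => n p.1 * n p.2)
      fun p => (A p.1 p.2 + A p.2 p.1) / 2
    simp only [Fintype.sum_prod_type, mul_pow, ← Finset.mul_sum, ← Finset.sum_mul, hn2,
      one_mul] at h3
    refine le_trans (le_of_eq ?_) h3
    simp only [Fin.sum_univ_three]
    ring
  · refine ne_of_eq_of_ne ?_ (pp_axis hn (t := 3 / (1 / 6)) (by norm_num)).ne'
    rw [dd_eq_sum' n (dd n (lap KK))]
    refine Finset.sum_congr rfl fun i _ => ?_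
    rw [dd_eq_sum' n (lap KK), BD.pd_sum' _ (fun j _ =>
      (BD.sm_diff (pd_contDiff_infty lapKK_contDiff j) _).const_mul (n j)), Finset.mul_sum]
    refine Finset.sum_congr rfl fun j _ => ?_
    rw [pd_const_mul (BD.sm_diff (pd_contDiff_infty lapKK_contDiff j) _), gMu]
    ring
  · rw [one_mul] at hA
    rw [fq_self, hA]
    linarith

theorem lam_fam (ho : IsOpen Ω) (hb : Bornology.IsBounded Ω) (h1 : SC Ω lam₁ mu₁)
    (h2 : SC Ω lam₂ mu₂) (hF : Fam N Ω lam₁ mu₁ lam₂ mu₂)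
    (hmu : ∀ x ∈ frontier Ω, mu₁ x = mu₂ x ∧ fderiv ℝ mu₁ x = fderiv ℝ mu₂ x)
    (x0 n : E3) (hn : ‖n‖ = 1) (ht : TanAt Ω x0 n) :
    0 ≤ lam₁ x0 - lam₂ x0 ∧ ((∀ z ∈ frontier Ω, lam₁ z - lam₂ z = 0) →
      fderiv ℝ (fun x => lam₁ x - lam₂ x) x0 n ≤ 0) := by
  have hx := ht.frontier ho hn
  have hm0 := h2.mu_pos x0 (frontier_subset_closure hx)
  have hlm := h2.sum_pos x0 (frontier_subset_closure hx)
  obtain ⟨R, hR⟩ := hb.subset_closedBall x0
  obtain ⟨M, hM, hK⟩ := taylor2 (h1.mu_smooth.sub h2.mu_smooth) x0 R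
  have htr : ∀ A : Fin 3 → Fin 3 → ℝ, ∑ i, ∑ j, (if i = j then 1 else 0) * A i j = ∑ i, A i i := by
    simp
  refine one_fam ho hb h1 h2 hF hn ht (gLa_hom (mu₂ x0 / (lam₂ x0 + mu₂ x0)) n)
    (fun w hw j => gLa_frz hlm.ne' n hw j) (q := fun A => (∑ i, A i i) ^ 2) (by fun_prop)
    tr_sq_le (m := fun i j => if i = j then 1 else 0) (fun A => by rw [htr]) ?_ (τ := 0)
    (fun w hw => zero_mul _) (h1.lam_smooth.sub h2.lam_smooth) (κ := 1) (M := 2 * M) one_pos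
    (by positivity) fun x hx' A _ => ?_
  · rw [htr fun i j => pd i (gLa _ n j) _, gLa_div]
    exact mul_ne_zero (by positivity) (pp_axis hn (t := 3 / (1 / 6)) (by norm_num)).ne'
  · have h3 := hK x (by rw [← dist_eq_norm]; exact Metric.mem_closedBall.mp (hR hx'))
    rw [fderiv_fun_sub (BD.sm_diff h1.mu_smooth x0) (BD.sm_diff h2.mu_smooth x0), (hmu x0 hx).1,
      (hmu x0 hx).2] at h3
    simp only [sub_self, sub_zero, ContinuousLinearMap.zero_apply] at h3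
    rw [fq_self]
    linarith only [mul_le_mul_of_nonneg_right ((le_abs_self _).trans h3) (eq2_nonneg A)]

/-- Boundary determination to first order. -/
theorem bd_fam (ho : IsOpen Ω) (hb : Bornology.IsBounded Ω)
    (hden : frontier Ω ⊆ closure {x | ∃ n : E3, ‖n‖ = 1 ∧ TanAt Ω x n}) (h1 : SC Ω lam₁ mu₁)
    (h2 : SC Ω lam₂ mu₂) (hF : Fam N Ω lam₁ mu₁ lam₂ mu₂) :
    ∀ x ∈ frontier Ω, mu₁ x = mu₂ x ∧ lam₁ x = lam₂ x ∧
      fderiv ℝ mu₁ x = fderiv ℝ mu₂ x ∧ fderiv ℝ lam₁ x = fderiv ℝ lam₂ x := by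
  have a := two_sided ho hden h1.mu_smooth h2.mu_smooth (mu_fam ho hb h1 h2 hF)
    (mu_fam ho hb h2 h1 hF.symm)
  have b := two_sided ho hden h1.lam_smooth h2.lam_smooth (lam_fam ho hb h1 h2 hF a)
    (lam_fam ho hb h2 h1 hF.symm fun x hx => ⟨(a x hx).1.symm, (a x hx).2.symm⟩)
  exact fun x hx => ⟨(a x hx).1, (b x hx).1, (a x hx).2, (b x hx).2⟩

end Vale.Agent.N136
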