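import Vale.Agent.P136.H222.Final
import Mathlib.MeasureTheory.Function.LpSpace.Complete

set_option linter.all false

/-! A Carleman estimate for `ζ · ∇`. -/

open MeasureTheory Filter Topology
open scoped ContDiff InnerProductSpace ComplexConjugate

namespace Vale.Agent.N136

open Vale.Agent.P136 Vale.Agent.P136.TL Vale.Agent.P136.EX

/-- complex conjugate -/
noncomputable def cj (f : Sm) : Sm :=
  ⟨fun x => conj ((f : E3 → ℂ) x), Complex.conjCLE.contDiff.comp (sm_cd f)⟩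

theorem cj_apply (f : Sm) (x : E3) : (cj f : E3 → ℂ) x = conj ((f : E3 → ℂ) x) := rfl

theorem DD_cj (ζ : Fin 3 → ℂ) (f : Sm) : DD (fun i => conj (ζ i)) (cj f) = cj (DD ζ f) := by
  apply Subtype.ext
  funext x
  have h : ∀ i, pd i (cj f : E3 → ℂ) x = conj (pd i (f : E3 → ℂ) x) := fun i => by
    unfold pd
    have := (Complex.conjCLE.toContinuousLinearMap.hasFDerivAt.comp x
      (sm_diffAt f x).hasFDerivAt).fderiv
    exact congrArg (fun L => L (bv i)) this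
  rw [cj_apply, DD_coe, DD_coe]
  simp only [Dz, h, map_sum, map_mul]

theorem DD_comm (ζ ξ : Fin 3 → ℂ) (f : Sm) : DD ζ (DD ξ f) = DD ξ (DD ζ f) := by
  simp only [DD_apply, map_sum, map_smul, Finset.smul_sum]
  rw [Finset.sum_comm]
  exact Finset.sum_congr rfl fun i _ => Finset.sum_congr rfl fun j _ => by rw [P_comm, smul_comm]

/-- the linear function `ζ · x` -/
noncomputable def zS (ζ : Fin 3 → ℂ) : Sm := ⟨zx ζ, TL.zx_contDiff ζ⟩

theorem DD_zS (ξ ζ : Fin 3 → ℂ) : DD ξ (zS ζ) = K (dot ξ ζ) := by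
  apply Subtype.ext
  funext x
  rw [DD_coe]
  simp only [Dz, zS, TL.pd_zx, dot, K_apply]

theorem cj_zS (ζ : Fin 3 → ℂ) : cj (zS ζ) = zS fun i => conj (ζ i) := by
  apply Subtype.ext
  funext x
  simp [cj_apply, zS, zx]

theorem om_sq {B : Set E3} (hb : Bornology.IsBounded B) (g : Sm) :
    om B hb (g * cj g) = ((∫ x in B, ‖(g : E3 → ℂ) x‖ ^ 2 : ℝ) : ℂ) := by
  rw [TLF.om_apply, ← integral_complex_ofReal]
  refine integral_congr_ae (Eventually.of_forall fun x => ?_)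
  simp only [ev_mul, cj_apply, Complex.mul_conj, Complex.normSq_eq_norm_sq]

theorem dot_cj (ζ : Fin 3 → ℂ) : dot ζ (fun i => conj (ζ i)) = ((∑ i, ‖ζ i‖ ^ 2 : ℝ) : ℂ) := by
  simp [dot, Complex.mul_conj, Complex.normSq_eq_norm_sq]

theorem carl_sm {B : Set E3} (ho : IsOpen B) (hb : Bornology.IsBounded B) (ζ : Fin 3 → ℂ) (τ : ℝ)
    (Y : Sm) (hY : Y ∈ TL.IO B) :
    2 * τ * (∑ i, ‖ζ i‖ ^ 2) * ∫ x in B, ‖(Y : E3 → ℂ) x‖ ^ 2 ≤
      ∫ x in B, ‖((DD ζ Y - K τ * zS ζ * Y : Sm) : E3 → ℂ) x‖ ^ 2 := by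
  set ξ : Fin 3 → ℂ := fun i => conj (ζ i) with hξ
  have hξ' : (fun i => conj (ξ i)) = ζ := by funext i; simp [hξ]
  have e1 : cj (DD ζ Y - K τ * zS ζ * Y) = DD ξ (cj Y) - K τ * zS ξ * cj Y := by
    rw [DD_cj, ← cj_zS]
    apply Subtype.ext
    funext x
    simp [cj_apply, K_apply]
  have e2 : cj (DD ξ Y + K τ * zS ξ * Y) = DD ζ (cj Y) + K τ * zS ζ * cj Y := by
    rw [← hξ', DD_cj, ← cj_zS, hξ']
    apply Subtype.ext
    funext x
    simp [cj_apply, K_apply]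
  have d1 := DD_zS ζ ξ
  have d2 := DD_zS ξ ζ
  rw [show dot ξ ζ = dot ζ ξ by simp [dot, mul_comm]] at d2
  rw [hξ, dot_cj, ← hξ] at d1 d2
  have key : (DD ζ Y - K τ * zS ζ * Y) * cj (DD ζ Y - K τ * zS ζ * Y) =
      (DD ξ Y + K τ * zS ξ * Y) * cj (DD ξ Y + K τ * zS ξ * Y) +
      DD ζ (Y * (DD ξ (cj Y) - K τ * zS ξ * cj Y)) - DD ξ (Y * (DD ζ (cj Y) + K τ * zS ζ * cj Y)) +
      K ((2 * τ * ∑ i, ‖ζ i‖ ^ 2 : ℝ) : ℂ) * (Y * cj Y) := by
    have k0 : ∀ η, DD η (K τ) = 0 := fun η => by simp [DD_apply, P_K]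
    have k2 : K ((2 * τ * ∑ i, ‖ζ i‖ ^ 2 : ℝ) : ℂ) = 2 * K τ * K ((∑ i, ‖ζ i‖ ^ 2 : ℝ) : ℂ) := by
      rw [Complex.ofReal_mul, Complex.ofReal_mul, K_mul, K_mul]
      rfl
    rw [e1, e2, k2]
    simp only [DD_mul, map_sub, map_add, k0, d1, d2, DD_comm ζ ξ]
    ring
  have h := congrArg (om B hb) key
  rw [map_add, map_sub, map_add, TLF.om_DD ho hb _ _ (Ideal.mul_mem_right _ _ hY),
    TLF.om_DD ho hb _ _ (Ideal.mul_mem_right _ _ hY), lin_K, om_sq, om_sq, om_sq] at h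
  have h' := congrArg Complex.re h
  simp only [add_zero, sub_zero, ← Complex.ofReal_mul, ← Complex.ofReal_add, Complex.ofReal_re] at h'
  rw [h']
  exact le_add_of_nonneg_left (integral_nonneg fun _ => by positivity)

/-- complex mollification -/
noncomputable def mC (n : ℕ) (Y : E3 → ℂ) (x : E3) : ℂ :=
  moll n (fun y => (Y y).re) x + Complex.I * moll n (fun y => (Y y).im) x

theorem cv_split {k : E3 → ℝ} (hk : ContDiff ℝ ∞ k) (hc : HasCompactSupport k) {Y : E3 → ℂ}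
    (hY : MemLp Y 2) (x : E3) : ∫ y, Y y * k (x - y) =
      cv k (fun y => (Y y).re) x + Complex.I * cv k (fun y => (Y y).im) x := by
  have hi : Integrable fun y => Y y * (k (x - y) : ℂ) := by
    have := (hY.locallyIntegrable (by norm_num)).integrable_smul_left_of_hasCompactSupport
      (sub_cd hk x).continuous (sub_cs hc x)
    simpa [mul_comm] using this
  rw [← integral_re_add_im hi, mul_comm Complex.I]
  simp [cv, mul_comm]

theorem mC_cd (n : ℕ) {Y : E3 → ℂ} (hY : MemLp Y 2) : ContDiff ℝ ∞ (mC n Y) :=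
  (Complex.ofRealCLM.contDiff.comp (moll_contDiff n (hY.re.locallyIntegrable (by norm_num)))).add
    (contDiff_const.mul (Complex.ofRealCLM.contDiff.comp
      (moll_contDiff n (hY.im.locallyIntegrable (by norm_num)))))

theorem mC_tendsto {Y : E3 → ℂ} (hY : MemLp Y 2) :
    Tendsto (fun n => ∫ x, ‖mC n Y x - Y x‖ ^ 2) atTop (𝓝 0) := by
  have h1 : MemLp (fun y => (Y y).re) 2 := hY.re
  have h2 : MemLp (fun y => (Y y).im) 2 := hY.im
  have := (moll_N2_tendsto h1).add (moll_N2_tendsto h2)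
  rw [add_zero] at this
  refine this.congr fun n => ?_
  unfold N2
  rw [← integral_add (memLp_sq_int (memLp_sub' (moll_memLp n h1) h1))
    (memLp_sq_int (memLp_sub' (moll_memLp n h2) h2))]
  refine integral_congr_ae (Eventually.of_forall fun x => ?_)
  simp only [Complex.sq_norm, Complex.normSq_apply]
  simp [mC, sq]

variable {Ω : Set E3} {ζ : Fin 3 → ℂ} {Y G H : E3 → ℂ}

theorem Dz_mC (hb : Bornology.IsBounded Ω) (hY : BL2 Ω Y) (hG : BL2 Ω G) (h : WDz ζ Y G) (n : ℕ)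
    (x : E3) : Dz ζ (mC n Y) x = mC n G x := by
  have l1 : LocallyIntegrable fun y => (Y y).re := hY.mem.re.locallyIntegrable (by norm_num)
  have l2 : LocallyIntegrable fun y => (Y y).im := hY.mem.im.locallyIntegrable (by norm_num)
  have hk : ContDiff ℝ ∞ fun y => (ker n (x - y) : ℂ) :=
    Complex.ofRealCLM.contDiff.comp (ker_sub_contDiff n x)
  have e1 : ∀ i, pd i (mC n Y) x = ∫ y, Y y * pd i (ker n) (x - y) := fun i => by
    rw [cv_split (pd_contDiff_infty (ker_contDiff n) i) (pd_hasCompactSupport (ker_cs n) i) hY.mem,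
      ← pd_cv (ker_contDiff n) (ker_cs n) l1, ← pd_cv (ker_contDiff n) (ker_cs n) l2,
      ← moll_eq_cv, ← moll_eq_cv, ← pd_ofReal_tr (moll_contDiff n l1),
      ← pd_ofReal_tr (moll_contDiff n l2)]
    have d1 := ContDiff.dAt (x := x) (Complex.ofRealCLM.contDiff.comp (moll_contDiff n l1))
    have d2 := ContDiff.dAt (x := x) (Complex.ofRealCLM.contDiff.comp (moll_contDiff n l2))
    exact (CP.pd_add' i d1 (d2.const_mul _)).trans (congrArg _ (CP.pd_const_mul' _ i d2))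
  have e2 := h _ hk
  have e3 : ∀ y, Y y * Dz ζ (fun y => (ker n (x - y) : ℂ)) y =
      -∑ i, ζ i * (Y y * pd i (ker n) (x - y)) := fun y => by
    simp only [Dz, pd_ofReal_tr (ker_sub_contDiff n x), pd_sub_left (ker_contDiff n),
      Fin.sum_univ_three]
    push_cast
    ring
  simp only [e3, integral_neg, neg_inj] at e2
  have i1 : ∀ i, Integrable fun y => ζ i * (Y y * pd i (ker n) (x - y)) := fun i =>
    (hY.integrable_mul hb (Complex.continuous_ofReal.comp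
      (sub_cd (pd_contDiff_infty (ker_contDiff n) i) x).continuous)).const_mul _
  rw [integral_finsetSum _ fun i _ => i1 i] at e2
  simp only [integral_const_mul] at e2
  simp only [Dz, e1, e2]
  exact cv_split (ker_contDiff n) (ker_cs n) hG.mem x

theorem wsq_le {μ : Measure E3} {m X : E3 → ℂ} {A : ℝ} (hX : MemLp X 2 μ)
    (h : ∀ᵐ x ∂μ, ‖m x * X x‖ ≤ A * ‖X x‖) : ∫ x, ‖m x * X x‖ ^ 2 ∂μ ≤ A ^ 2 * ∫ x, ‖X x‖ ^ 2 ∂μ := by
  rw [← integral_const_mul]
  refine integral_mono_of_nonneg (Eventually.of_forall fun _ => by positivity)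
    ((sq_int_mu hX).const_mul _) (h.mono fun x hx => ?_)
  exact (pow_le_pow_left₀ (norm_nonneg _) hx 2).trans_eq (mul_pow _ _ _)

theorem sq_add_le {μ : Measure E3} {a b : E3 → ℂ} (ha : MemLp a 2 μ) (hb : MemLp b 2 μ) :
    ∫ x, ‖a x + b x‖ ^ 2 ∂μ ≤ 2 * (∫ x, ‖a x‖ ^ 2 ∂μ) + 2 * ∫ x, ‖b x‖ ^ 2 ∂μ := by
  simpa using sq_bound (a := fun x => a x + b x) (ha.add hb) hb

theorem mC_lim (hY : MemLp Y 2) (B : Set E3) :
    Tendsto (fun n => ∫ x in B, ‖mC n Y x - Y x‖ ^ 2) atTop (𝓝 0) := by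
  refine squeeze_zero (fun _ => integral_nonneg fun _ => by positivity) (fun n => ?_)
    (mC_tendsto hY)
  have h1 : MemLp (fun x => (moll n (fun y => (Y y).re) x : ℂ)) 2 := (moll_memLp n hY.re).ofReal
  have h2 : MemLp (fun x => (moll n (fun y => (Y y).im) x : ℂ)) 2 := (moll_memLp n hY.im).ofReal
  have h3 : MemLp (fun x => mC n Y x - Y x) 2 := (h1.add (h2.const_mul _)).sub hY
  exact setIntegral_le_integral (sq_int_mu h3) (Eventually.of_forall fun _ => by positivity)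

theorem mC_zero {R : ℝ} (hR : Ω ⊆ Metric.ball 0 R) (hY : BL2 Ω Y) (n : ℕ) {x : E3}
    (hx : ‖x‖ = R + 2) : mC n Y x = 0 := by
  have h2 : R + 1 / ((n : ℝ) + 1) < ‖x‖ := by
    have : 1 / ((n : ℝ) + 1) ≤ 1 := div_le_one_of_le₀ (by simp) (by positivity)
    linarith
  have h3 : ∀ y : E3, R < ‖y‖ → Y y = 0 := fun y hy =>
    hY.zero y fun h => hy.not_gt (mem_ball_zero_iff.1 (hR h))
  rw [mC, moll_zero (R := R) (Eventually.of_forall fun y hy => by simp [h3 y hy]) h2,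
    moll_zero (R := R) (Eventually.of_forall fun y hy => by simp [h3 y hy]) h2]
  simp

/-- The Carleman estimate for weak solutions with bounded support. -/
theorem carl (hb : Bornology.IsBounded Ω) {τ : ℝ} (hτ : 0 ≤ τ) (hY : BL2 Ω Y) (hH : BL2 Ω H)
    (h : WDz ζ Y fun x => H x + τ * zx ζ x * Y x) :
    τ * (∑ i, ‖ζ i‖ ^ 2) * ∫ x, ‖Y x‖ ^ 2 ≤ 2 * ∫ x, ‖H x‖ ^ 2 := by
  obtain ⟨R, hR0, hR⟩ := hb.subset_ball_lt 0 (0 : E3)
  have hw : Continuous fun x => (τ : ℂ) * zx ζ x :=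
    continuous_const.mul (TL.zx_contDiff ζ).continuous
  have hG := hH.add (hY.mul hb hw)
  obtain ⟨G, hGd⟩ : ∃ G : E3 → ℂ, G = fun x => H x + τ * zx ζ x * Y x := ⟨_, rfl⟩
  rw [← hGd] at h hG
  have hBb : Bornology.IsBounded (Metric.ball (0 : E3) (R + 2)) := Metric.isBounded_ball
  have hBo : IsOpen (Metric.ball (0 : E3) (R + 2)) := Metric.isOpen_ball
  have hΩB : Ω ⊆ Metric.ball 0 (R + 2) := hR.trans (Metric.ball_subset_ball (by linarith))
  have hfr : ∀ x ∈ frontier (Metric.ball (0 : E3) (R + 2)), ‖x‖ = R + 2 := fun x hx => by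
    rwa [frontier_ball _ (by positivity), mem_sphere_zero_iff_norm] at hx
  generalize Metric.ball (0 : E3) (R + 2) = B at hBb hBo hΩB hfr
  obtain ⟨W, hW0, hW⟩ := exists_bound_on hBb hw
  have full : ∀ {X : E3 → ℂ}, BL2 Ω X → ∫ x in B, ‖X x‖ ^ 2 = ∫ x, ‖X x‖ ^ 2 := fun hX =>
    setIntegral_eq_integral_of_forall_compl_eq_zero fun x hx => by
      simp [hX.zero x fun h => hx (hΩB h)]
  obtain ⟨c, hc⟩ : ∃ c, c = τ * ∑ i, ‖ζ i‖ ^ 2 := ⟨_, rfl⟩
  have hc0 : 0 ≤ c := by rw [hc]; positivity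
  have t := ((((mC_lim hY.mem B).const_mul (2 * c)).add ((mC_lim hG.mem B).const_mul 4)).add
    ((mC_lim hY.mem B).const_mul (4 * W ^ 2))).add_const (2 * ∫ x, ‖H x‖ ^ 2)
  simp only [mul_zero, zero_add] at t
  rw [← hc]
  refine ge_of_tendsto' t fun n => ?_
  have m1 := cont_memLp_restrict hBb (mC_cd n hY.mem).continuous
  have mY := hY.mem.restrict B
  have a1 := carl_sm hBo hBb ζ τ ⟨_, mC_cd n hY.mem⟩ fun x hx => mC_zero hR hY n (hfr x hx)
  have e : ∀ x, ((DD ζ ⟨_, mC_cd n hY.mem⟩ - K τ * zS ζ * ⟨_, mC_cd n hY.mem⟩ : Sm) : E3 → ℂ) x =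
      ((mC n G x - G x) + -(τ * zx ζ x) * (mC n Y x - Y x)) + H x := fun x => by
    rw [← Dz_mC hb hY hG h n x, hGd]
    simp only [Subalgebra.coe_sub, Pi.sub_apply, DD_coe, ev_mul, K_apply, zS]
    ring
  simp only [e] at a1
  have m2 : MemLp (fun x => mC n Y x - Y x) 2 (volume.restrict B) := m1.sub mY
  have m3 : MemLp (fun x => mC n G x - G x) 2 (volume.restrict B) :=
    (cont_memLp_restrict hBb (mC_cd n hG.mem).continuous).sub (hG.mem.restrict B)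
  have m4 : MemLp (fun x => -(τ * zx ζ x) * (mC n Y x - Y x)) 2 (volume.restrict B) :=
    TL.memLp_mul_cont hBb hw.neg m2
  have a2 := sq_add_le (a := fun x => (mC n G x - G x) + -(τ * zx ζ x) * (mC n Y x - Y x))
    (m3.add m4) (hH.mem.restrict B)
  have a3 := sq_add_le m3 m4
  have a4 := wsq_le (m := fun x => -(τ * zx ζ x)) (A := W) m2
    (ae_restrict_of_forall_mem hBo.measurableSet fun x hx => by
      rw [norm_mul, norm_neg]
      exact mul_le_mul_of_nonneg_right (hW x hx) (norm_nonneg _))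
  have a5 := sq_bound mY m1
  simp only [norm_sub_rev (Y _) (mC n Y _)] at a5
  rw [full hY] at a5
  rw [full hH] at a2
  have a6 := mul_le_mul_of_nonneg_left a5 hc0
  rw [mul_assoc 2 τ, ← hc] at a1
  linarith

/-- The a priori estimate for a system of two equations. -/
theorem apriori (hb : Bornology.IsBounded Ω) (hζ : dot ζ ζ = 0) (hζ0 : ζ ≠ 0) {α β : E3 → ℂ}
    (hα : Continuous α) (hβ : Continuous β) : ∃ f : E3 → ℂ, Continuous f ∧ (∀ x, f x ≠ 0) ∧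
      ∀ X₁ X₂ G₁ G₂ : E3 → ℂ, BL2 Ω X₁ → BL2 Ω X₂ → BL2 Ω G₁ → BL2 Ω G₂ →
        WDz ζ X₁ (fun x => α x * X₂ x + G₁ x) → WDz ζ X₂ (fun x => β x * X₁ x + G₂ x) →
        (∫ x, ‖f x * X₁ x‖ ^ 2) + ∫ x, ‖f x * X₂ x‖ ^ 2 ≤
          (∫ x, ‖f x * G₁ x‖ ^ 2) + ∫ x, ‖f x * G₂ x‖ ^ 2 := by
  obtain ⟨a, ha⟩ : ∃ a, a = ∑ i, ‖ζ i‖ ^ 2 := ⟨_, rfl⟩
  have ha0 : 0 < a := by
    obtain ⟨i, hi⟩ := Function.ne_iff.1 hζ0
    exact ha ▸ Finset.sum_pos' (fun _ _ => by positivity) ⟨i, Finset.mem_univ _,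
      pow_pos (norm_pos_iff.2 hi) 2⟩
  obtain ⟨A, hA0, hA⟩ := exists_bound_on hb hα
  obtain ⟨A', hA0', hA'⟩ := exists_bound_on hb hβ
  obtain ⟨τ, hτ⟩ : ∃ τ, τ = (4 * (A + A') ^ 2 + 4) / a := ⟨_, rfl⟩
  have hτ0 : 0 ≤ τ := by rw [hτ]; positivity
  have hτa : τ * ∑ i, ‖ζ i‖ ^ 2 = 4 * (A + A') ^ 2 + 4 := by rw [← ha, hτ]; field_simp
  set g : Sm := K ((τ / a : ℝ) : ℂ) * (zS ζ * zS fun i => conj (ζ i)) with hg
  have hf : ContDiff ℝ ∞ fun x => Complex.exp ((g : E3 → ℂ) x) := Complex.contDiff_exp.comp (sm_cd g)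
  have hD : ∀ x, Dz ζ (fun x => Complex.exp ((g : E3 → ℂ) x)) x =
      τ * zx ζ x * Complex.exp ((g : E3 → ℂ) x) := fun x => by
    have h1 : DD ζ g = K τ * zS ζ := by
      have k0 : ∀ c, DD ζ (K c) = 0 := fun c => by simp [DD_apply, P_K]
      have k1 : K τ = K ((τ / a : ℝ) : ℂ) * K (a : ℂ) := by
        rw [← K_mul, ← Complex.ofReal_mul, div_mul_cancel₀ _ ha0.ne']
      rw [hg, DD_mul, DD_mul, DD_zS, DD_zS, hζ, dot_cj, ← ha, k0, K_zero, k1]
      ring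
    have h2 : Dz ζ (g : E3 → ℂ) x = τ * zx ζ x := by rw [← DD_coe, h1]; rfl
    rw [← h2]
    simp only [Dz, pd, (sm_diffAt g x).hasFDerivAt.cexp.fderiv, Finset.sum_mul]
    exact Finset.sum_congr rfl fun i _ => by simp; ring
  obtain ⟨f, hf, hf0, hD⟩ : ∃ f : E3 → ℂ, ContDiff ℝ ∞ f ∧ (∀ x, f x ≠ 0) ∧
      ∀ x, Dz ζ f x = τ * zx ζ x * f x := ⟨_, hf, fun x => Complex.exp_ne_zero _, hD⟩
  refine ⟨f, hf.continuous, hf0, ?_⟩
  have one : ∀ {γ X Y G : E3 → ℂ}, Continuous γ → (∀ x ∈ Ω, ‖γ x‖ ≤ A + A') → BL2 Ω X → BL2 Ω Y →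
      BL2 Ω G → WDz ζ X (fun x => γ x * Y x + G x) →
      (4 * (A + A') ^ 2 + 4) * ∫ x, ‖f x * X x‖ ^ 2 ≤
        4 * ((A + A') ^ 2 * ∫ x, ‖f x * Y x‖ ^ 2) + 4 * ∫ x, ‖f x * G x‖ ^ 2 := by
    intro γ X Y G hγ hγb hX hY hG h
    have b1 := hY.mul hb hf.continuous
    have b2 := hG.mul hb hf.continuous
    have h1 := carl hb hτ0 (hX.mul hb hf.continuous) ((b1.mul hb hγ).add b2)
      ((h.mul hb hX ((hY.mul hb hγ).add hG) hf).congr (fun _ => rfl) fun x => by rw [hD]; ring)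
    have h2 := sq_add_le (b1.mul hb hγ).mem b2.mem
    have h3 := wsq_le (m := γ) (A := A + A') b1.mem (Eventually.of_forall fun x => by
      by_cases hx : x ∈ Ω
      · rw [norm_mul]
        exact mul_le_mul_of_nonneg_right (hγb x hx) (norm_nonneg _)
      · simp [hY.zero x hx])
    rw [hτa] at h1
    linarith
  intro X₁ X₂ G₁ G₂ b1 b2 b3 b4 h1 h2
  have e1 := one hα (fun x hx => by linarith [hA x hx]) b1 b2 b3 h1
  have e2 := one hβ (fun x hx => by linarith [hA' x hx]) b2 b1 b4 h2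
  linarith

/-- A factor `p` which is constant along `ζ` and vanishes only on a null set can be removed from
the source. -/
theorem divide (hb : Bornology.IsBounded Ω) (hζ : dot ζ ζ = 0) (hζ0 : ζ ≠ 0) {α β : E3 → ℂ}
    (hα : Continuous α) (hβ : Continuous β) {p : E3 → ℝ} (hp : ContDiff ℝ ∞ p)
    (hDp : DD ζ (ofR p hp) = 0) (hp0 : ∀ᵐ x, p x ≠ 0) {X₁ X₂ F₁ F₂ : E3 → ℂ} (b1 : BL2 Ω X₁)
    (b2 : BL2 Ω X₂) (b3 : BL2 Ω F₁) (b4 : BL2 Ω F₂)
    (h1 : WDz ζ X₁ fun x => α x * X₂ x + p x * F₁ x)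
    (h2 : WDz ζ X₂ fun x => β x * X₁ x + p x * F₂ x) : ∃ Z₁ Z₂, BL2 Ω Z₁ ∧ BL2 Ω Z₂ ∧
      WDz ζ Z₁ (fun x => α x * Z₂ x + F₁ x) ∧ WDz ζ Z₂ fun x => β x * Z₁ x + F₂ x := by
  obtain ⟨f, hf, hf0, hap⟩ := apriori hb hζ hζ0 hα hβ
  have hq : ∀ (k : ℕ) x, 0 < p x ^ 2 + 1 / ((k : ℝ) + 1) := fun k x => by positivity
  have hr : ∀ k : ℕ, ContDiff ℝ ∞ fun x => (p x ^ 2 + 1 / ((k : ℝ) + 1))⁻¹ := fun k =>
    ((hp.pow 2).add contDiff_const).inv fun x => (hq k x).ne'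
  set θ : ℕ → Sm := fun k => ofR p hp * ofR _ (hr k) with hθ
  have hDθ : ∀ k x, Dz ζ (θ k : E3 → ℂ) x = 0 := fun k x => by
    have e : (ofR p hp * ofR p hp + K ((1 / ((k : ℝ) + 1) : ℝ) : ℂ)) * ofR _ (hr k) = 1 := by
      apply Subtype.ext
      funext x
      simp only [ev_mul, ev_add, ofR_apply, K_apply, ev_one, ← Complex.ofReal_mul,
        ← Complex.ofReal_add]
      rw [← sq, mul_inv_cancel₀ (hq k x).ne', Complex.ofReal_one]
    have e1 := congrArg (DD ζ) e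
    have k0 : ∀ c, DD ζ (K c) = 0 := fun c => by simp [DD_apply, P_K]
    rw [DD_mul, map_add, DD_mul, hDp, k0, ← K_one, k0] at e1
    have e2 : DD ζ (ofR _ (hr k)) = 0 := by
      linear_combination ofR _ (hr k) * e1 - DD ζ (ofR _ (hr k)) * e
    rw [← DD_coe, hθ, DD_mul, hDp, e2]
    simp
  set ρ : ℕ → E3 → ℝ := fun k x => p x * (p x ^ 2 + 1 / ((k : ℝ) + 1))⁻¹ * p x with hρ
  have hθρ : ∀ k x, (θ k : E3 → ℂ) x * p x = ρ k x := fun k x => by
    simp only [hθ, hρ, ev_mul, ofR_apply, Complex.ofReal_mul]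
  have hρ1 : ∀ k x, ‖(ρ k x : ℂ)‖ ≤ 1 := fun k x => by
    have e : ρ k x = p x ^ 2 / (p x ^ 2 + 1 / ((k : ℝ) + 1)) := by simp only [hρ]; ring
    rw [Complex.norm_real, e, Real.norm_of_nonneg (div_nonneg (sq_nonneg _) (hq k x).le),
      div_le_one (hq k x)]
    exact le_add_of_nonneg_right (by positivity)
  have hρc : ∀ k, Continuous fun x => (ρ k x : ℂ) := fun k =>
    Complex.continuous_ofReal.comp ((hp.continuous.mul (hr k).continuous).mul hp.continuous)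
  have hρt : ∀ x, p x ≠ 0 → Tendsto (fun k => (ρ k x : ℂ)) atTop (𝓝 1) := fun x hx => by
    have t := (((tendsto_one_div_add_atTop_nhds_zero_nat (𝕜 := ℝ)).const_add (p x ^ 2)).inv₀
      (by simpa using hx)).const_mul (p x) |>.mul_const (p x)
    rw [show p x * (p x ^ 2 + 0)⁻¹ * p x = 1 by field_simp; ring] at t
    exact (Complex.continuous_ofReal.tendsto 1).comp t
  have cp : Continuous fun x => (p x : ℂ) := Complex.continuous_ofReal.comp hp.continuous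
  have wk : ∀ {γ X Y F : E3 → ℂ}, Continuous γ → BL2 Ω X → BL2 Ω Y → BL2 Ω F →
      WDz ζ X (fun x => γ x * Y x + p x * F x) → ∀ k, WDz ζ (fun x => (θ k : E3 → ℂ) x * X x)
        fun x => γ x * ((θ k : E3 → ℂ) x * Y x) + ρ k x * F x := fun hγ hX hY hF h k =>
    (h.mul hb hX ((hY.mul hb hγ).add (hF.mul hb cp)) (sm_cd (θ k))).congr (fun _ => rfl) fun x => by
      rw [hDθ, ← hθρ]; ring
  have bd : ∀ k, (∫ x, ‖f x * ((θ k : E3 → ℂ) x * X₁ x)‖ ^ 2) +
      ∫ x, ‖f x * ((θ k : E3 → ℂ) x * X₂ x)‖ ^ 2 ≤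
      (∫ x, ‖f x * F₁ x‖ ^ 2) + ∫ x, ‖f x * F₂ x‖ ^ 2 := fun k => by
    have le : ∀ {F : E3 → ℂ}, BL2 Ω F →
        ∫ x, ‖f x * (ρ k x * F x)‖ ^ 2 ≤ ∫ x, ‖f x * F x‖ ^ 2 := fun {F} hF => by
      have := wsq_le (m := fun x => (ρ k x : ℂ)) (A := 1) (hF.mul hb hf).mem
        (Eventually.of_forall fun x => by
          rw [norm_mul]
          exact mul_le_mul_of_nonneg_right (hρ1 k x) (norm_nonneg _))
      simpa only [one_pow, one_mul, mul_left_comm (f _)] using this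
    exact (hap _ _ _ _ (b1.mul hb (sm_cont _)) (b2.mul hb (sm_cont _)) (b3.mul hb (hρc k))
      (b4.mul hb (hρc k)) (wk hα b1 b2 b3 h1 k) (wk hβ b2 b1 b4 h2 k)).trans
      (add_le_add (le b3) (le b4))
  have ez : ∀ (X : E3 → ℂ) k x, p x ≠ 0 → (θ k : E3 → ℂ) x * X x = ρ k x * (X x / p x) :=
    fun X k x hx => by
      have : (p x : ℂ) ≠ 0 := by exact_mod_cast hx
      rw [← hθρ]
      field_simp
  have mem : ∀ {X : E3 → ℂ} {C : ℝ}, BL2 Ω X →
      (∀ k, ∫ x, ‖f x * ((θ k : E3 → ℂ) x * X x)‖ ^ 2 ≤ C) → BL2 Ω fun x => X x / p x := by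
    intro X C hX hC
    have m1 : AEStronglyMeasurable (fun x => f x * (X x / p x)) volume :=
      hf.aestronglyMeasurable.mul (hX.mem.1.aemeasurable.div cp.aemeasurable).aestronglyMeasurable
    have i1 := fun k => sq_int_mu ((hX.mul hb (sm_cont (θ k))).mul hb hf).mem
    have m2 : BL2 Ω fun x => f x * (X x / p x) := by
      refine ⟨(memLp_two_iff_integrable_sq_norm m1).2 (memLp_one_iff_integrable.1
        ⟨m1.norm.pow 2, lt_of_le_of_lt (Lp.eLpNorm_le_of_ae_tendsto (u := atTop)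
          (Eventually.of_forall fun k => ?_) (fun k => (i1 k).1) (hp0.mono fun x hx => ?_))
          (ENNReal.ofReal_lt_top (r := C))⟩), fun x hx => by simp [hX.zero x hx]⟩
      · rw [eLpNorm_one_eq_lintegral_enorm, ← ofReal_integral_norm_eq_lintegral_enorm (i1 k)]
        exact ENNReal.ofReal_le_ofReal (by simpa only [norm_pow, norm_norm] using hC k)
      · simp only [ez X _ x hx]
        simpa only [one_mul] using ((((hρt x hx).mul_const _).const_mul (f x)).norm).pow 2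
    exact (m2.mul hb (hf.inv₀ hf0)).congr fun x => inv_mul_cancel_left₀ (hf0 x) _
  have n1 : ∀ g : E3 → ℂ, 0 ≤ ∫ x, ‖g x‖ ^ 2 := fun g => integral_nonneg fun _ => by positivity
  have z1 := mem b1 fun k => (le_add_of_nonneg_right (n1 _)).trans (bd k)
  have z2 := mem b2 fun k => (le_add_of_nonneg_left (n1 _)).trans (bd k)
  have dct : ∀ {g : E3 → ℂ}, Integrable g → Tendsto (fun k => ∫ x, ρ k x * g x) atTop (𝓝 (∫ x, g x)) :=
    fun {g} hg => tendsto_integral_of_dominated_convergence _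
      (fun k => (hρc k).aestronglyMeasurable.mul hg.1) hg.norm
      (fun k => Eventually.of_forall fun x => by
        rw [norm_mul]
        exact mul_le_of_le_one_left (norm_nonneg _) (hρ1 k x))
      (hp0.mono fun x hx => by simpa only [one_mul] using (hρt x hx).mul_const (g x))
  have fin : ∀ {γ X Y F : E3 → ℂ}, Continuous γ → BL2 Ω X → BL2 Ω Y → BL2 Ω F →
      BL2 Ω (fun x => X x / p x) → BL2 Ω (fun x => Y x / p x) →
      WDz ζ X (fun x => γ x * Y x + p x * F x) →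
      WDz ζ (fun x => X x / p x) fun x => γ x * (Y x / p x) + F x := by
    intro γ X Y F hγ hX hY hF zX zY h ψ hψ
    refine tendsto_nhds_unique (dct (zX.integrable_mul hb (EX.Dz_contDiff hψ).continuous))
      ((dct (((zY.mul hb hγ).add hF).integrable_mul hb hψ.continuous)).neg.congr fun k => ?_)
    refine Eq.trans ?_ ((wk hγ hX hY hF h k ψ hψ).symm.trans ?_)
    · exact congrArg _ (integral_congr_ae (hp0.mono fun x hx => by simp only [ez Y k x hx]; ring))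
    · exact integral_congr_ae (hp0.mono fun x hx => by simp only [ez X k x hx]; ring)
  exact ⟨_, _, z1, z2, fin hα b1 b2 b3 z1 z2 h1, fin hβ b2 b1 b4 z2 z1 h2⟩

end Vale.Agent.N136
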