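import Vale.Agent.N136.Bd
import Vale.Agent.N136.Car

set_option linter.all false

/-! Combinations of complex geometrical optics solutions. -/

open MeasureTheory Filter Topology
open scoped ContDiff InnerProductSpace

namespace Vale.Agent.N136

open Vale.Agent.P136 Vale.Agent.P136.TL
open Vale.Agent.P136.Exist.Rough (SC)

variable {N : ℕ} {Ω B : Set E3} {lam mu lam₁ mu₁ lam₂ mu₂ : E3 → ℝ}

theorem int_sum_le {μ : Measure E3} {c : Fin N → ℝ} {δ C : ℝ} (hc : ∀ k, |c k| ≤ δ)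
    {f : Fin N → E3 → ℂ} (hf : ∀ k, MemLp (f k) 2 μ) (hC : ∀ k, ∫ x, ‖f k x‖ ^ 2 ∂μ ≤ C) :
    ∫ x, ‖∑ k, c k * f k x‖ ^ 2 ∂μ ≤ N * δ ^ 2 * (N * C) := by
  have i1 := integrable_finsetSum Finset.univ fun k _ => sq_int_mu (hf k)
  refine (integral_mono_of_nonneg (Eventually.of_forall fun _ => by positivity)
    (i1.const_mul (N * δ ^ 2)) (Eventually.of_forall fun x => ?_)).trans ?_
  · have h1 := sq_sum_le (c := fun k => |c k|) (a := fun k => ‖f k x‖) (δ := δ) (by simpa using hc)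
    rw [Fintype.card_fin] at h1
    refine le_trans (pow_le_pow_left₀ (norm_nonneg _) ((norm_sum_le _ _).trans_eq ?_) 2) h1
    simp
  · rw [integral_const_mul, integral_finsetSum _ fun k _ => sq_int_mu (hf k)]
    refine mul_le_mul_of_nonneg_left ((Finset.sum_le_card_nsmul _ _ _ fun k _ => hC k).trans_eq ?_)
      (by positivity)
    simp

theorem mem_sum {μ : Measure E3} (c : Fin N → ℝ) {f : Fin N → E3 → ℂ} (hf : ∀ k, MemLp (f k) 2 μ) :
    MemLp (fun x => ∑ k, c k * f k x) 2 μ :=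
  memLp_finsetSum _ fun k _ => (hf k).const_mul _

theorem pair_sum {μ : Measure E3} (c : Fin N → ℝ) {f : Fin N → E3 → ℂ} {g : E3 → ℂ}
    (hf : ∀ k, MemLp (f k) 2 μ) (hg : MemLp g 2 μ) :
    ∫ x, (∑ k, c k * f k x) * g x ∂μ = ∑ k, c k * ∫ x, f k x * g x ∂μ := by
  simp only [Finset.sum_mul, mul_assoc, ← integral_const_mul]
  exact integral_finsetSum _ fun k _ => ((hf k).integrable_mul hg).const_mul _

theorem wdc_sum (hb : Bornology.IsBounded B) (c : Fin N → ℝ) {i : Fin 3} {f g : Fin N → E3 → ℂ}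
    (hf : ∀ k, MemLp (f k) 2 (volume.restrict B)) (hg : ∀ k, MemLp (g k) 2 (volume.restrict B))
    (h : ∀ k, WDc B i (f k) (g k)) :
    WDc B i (fun x => ∑ k, c k * f k x) fun x => ∑ k, c k * g k x := fun φ hφ => by
  rw [pair_sum c hf (cont_memLp_restrict hb (pd_contDiff_infty hφ.1 i).continuous),
    pair_sum c hg (cont_memLp_restrict hb hφ.1.continuous), ← Finset.sum_neg_distrib]
  exact Finset.sum_congr rfl fun k _ => by rw [h k φ hφ, mul_neg]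

theorem csol_sum (hb : Bornology.IsBounded B) (hl : Continuous lam) (hm : Continuous mu)
    (c : Fin N → ℝ) {du : Fin N → Fin 3 → Fin 3 → E3 → ℂ}
    (hd : ∀ k i j, MemLp (du k i j) 2 (volume.restrict B)) (h : ∀ k, CSol B lam mu (du k)) :
    CSol B lam mu fun i j x => ∑ k, c k * du k i j x := fun φ hφ => by
  have m : ∀ i j, MemLp (pd i (φ j)) 2 (volume.restrict B) := fun i j =>
    cont_memLp_restrict hb (pd_contDiff_infty (hφ j).1 i).continuous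
  have e : ∀ k, ∑ i, ∑ j, ∫ x in B, du k i j x * sg lam mu (fun i j => pd i (φ j)) i j x = 0 :=
    fun k => by
      have := h k φ hφ
      rw [CG1.cform_comm, cform_sg hb hl hm m (hd k)] at this
      simpa only [mul_comm] using this
  rw [CG1.cform_comm, cform_sg hb hl hm m fun i j => mem_sum c fun k => hd k i j]
  simp only [mul_comm (sg _ _ _ _ _ _), pair_sum c (fun k => hd k _ _) (sg_memLp hb hl hm m _ _)]
  rw [Finset.sum_congr rfl fun i _ => Finset.sum_comm, Finset.sum_comm]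
  simp only [← Finset.mul_sum, e, mul_zero, Finset.sum_const_zero]

/-- transfer of one complex solution (adapted from `transfer_of_real`) -/
theorem transfer_at (hop : IsOpen Ω) (hb : Bornology.IsBounded Ω) (h1 : SC Ω lam₁ mu₁)
    (h2 : SC Ω lam₂ mu₂) {u : Fin 3 → E3 → ℂ} {du : Fin 3 → Fin 3 → E3 → ℂ} (hu : CH1 Ω u du)
    (hs : CSol Ω lam₁ mu₁ du)
    (gr : Good Ω lam₁ mu₁ lam₂ mu₂ (fun i j x => (du i j x).re) fun j x => (u j x).re)
    (gi : Good Ω lam₁ mu₁ lam₂ mu₂ (fun i j x => (du i j x).im) fun j x => (u j x).im) :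
    ∃ (v : Fin 3 → E3 → ℂ) (dv : Fin 3 → Fin 3 → E3 → ℂ),
      (∀ j, CH10 Ω (v j) (fun i => dv i j)) ∧
      ∀ g : Fin 3 → E3 → ℂ, (∀ j, ContDiff ℝ ∞ (g j)) →
        cform Ω lam₂ mu₂ (fun i j x => du i j x + dv i j x) (fun i j => pd i (g j)) =
        cform Ω lam₁ mu₁ du (fun i j => pd i (g j)) := by
  have ho := hop.measurableSet
  have hl1 := h1.lam_smooth.continuous
  have hm1 := h1.mu_smooth.continuous
  have hl2 := h2.lam_smooth.continuous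
  have hm2 := h2.mu_smooth.continuous
  have hreal : ∀ u : H1 Ω, WeakSol lam₁ mu₁ u → Good Ω lam₁ mu₁ lam₂ mu₂ u.der u.val →
      ∃ w : H1 Ω, SameTrace w u ∧ ∀ g : Fin 3 → E3 → ℝ, (∀ j, ContDiff ℝ ∞ (g j)) →
      form Ω lam₂ mu₂ w.der (fun i j => pd i (g j)) =
        form Ω lam₁ mu₁ u.der (fun i j => pd i (g j)) := fun u hu hG => by
    obtain ⟨w, a, b⟩ := Exist.Rough.exists_dirichlet hop hb h2 u
    exact ⟨w, a, fun g hg => (hG u (ofSmooth hop hb g hg) rfl rfl ⟨g, hg, rfl⟩ _ _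
      ⟨u, sameTrace_refl u, hu, rfl⟩ ⟨w, a, b, rfl⟩).symm⟩
  obtain ⟨sr, si⟩ := CSol.parts hop hb hl1 hm1 hu hs
  obtain ⟨wr, ⟨φr, tr1, tr2, tr3⟩, fr⟩ := hreal _ sr gr
  obtain ⟨wi, ⟨φi, ti1, ti2, ti3⟩, fi⟩ := hreal _ si gi
  have mvr : ∀ j, MemLp (fun x => wr.val j x - (u j x).re) 2 (volume.restrict Ω) := fun j =>
    (wr.val_mem j).sub (hu.val_mem j).re
  have mvi : ∀ j, MemLp (fun x => wi.val j x - (u j x).im) 2 (volume.restrict Ω) := fun j =>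
    (wi.val_mem j).sub (hu.val_mem j).im
  have mdr : ∀ i j, MemLp (fun x => wr.der i j x - (du i j x).re) 2 (volume.restrict Ω) :=
    fun i j => (wr.der_mem i j).sub (hu.der_mem i j).re
  have mdi : ∀ i j, MemLp (fun x => wi.der i j x - (du i j x).im) 2 (volume.restrict Ω) :=
    fun i j => (wi.der_mem i j).sub (hu.der_mem i j).im
  refine ⟨fun j => cpx Ω (fun x => wr.val j x - (u j x).re) (fun x => wi.val j x - (u j x).im),
    fun i j => cpx Ω (fun x => wr.der i j x - (du i j x).re)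
      (fun x => wi.der i j x - (du i j x).im), fun j => ?_, fun g hg => ?_⟩
  · exact ch10_cpx ho hb (mvr j) (mvi j) (fun i => mdr i j) (fun i => mdi i j)
      (fun n => tr1 n j) (fun n => ti1 n j) (tr2 j) (ti2 j) (fun i => tr3 i j) (fun i => ti3 i j)
  · have hgr : ∀ j, ContDiff ℝ ∞ (fun y => (g j y).re) := fun j =>
      Complex.reCLM.contDiff.comp (hg j)
    have hgi : ∀ j, ContDiff ℝ ∞ (fun y => (g j y).im) := fun j =>
      Complex.imCLM.contDiff.comp (hg j)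
    have hG : ∀ i j, MemLp (fun x => du i j x + cpx Ω (fun x => wr.der i j x - (du i j x).re)
      (fun x => wi.der i j x - (du i j x).im) x) 2 (volume.restrict Ω) := by
      intro i j
      exact (hu.der_mem i j).add ((cpx_memLp ho (mdr i j) (mdi i j)).restrict Ω)
    have er : ∀ H : Fin 3 → Fin 3 → E3 → ℝ, form Ω lam₂ mu₂ (fun i j x =>
        (du i j x + cpx Ω (fun x => wr.der i j x - (du i j x).re)
      (fun x => wi.der i j x - (du i j x).im) x).re) H =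
        form Ω lam₂ mu₂ wr.der H := by
      intro H
      refine form_congr_on ho fun i j x hx => ?_
      rw [Complex.add_re, cpx_re hx]
      ring
    have ei : ∀ H : Fin 3 → Fin 3 → E3 → ℝ, form Ω lam₂ mu₂ (fun i j x =>
        (du i j x + cpx Ω (fun x => wr.der i j x - (du i j x).re)
      (fun x => wi.der i j x - (du i j x).im) x).im) H =
        form Ω lam₂ mu₂ wi.der H := by
      intro H
      refine form_congr_on ho fun i j x hx => ?_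
      rw [Complex.add_im, cpx_im hx]
      ring
    rw [cform_split ho hb hl2 hm2 hG hg, cform_split ho hb hl1 hm1 hu.der_mem hg, er, er, ei, ei,
      fr _ hgr, fr _ hgi, fi _ hgr, fi _ hgi]
    rfl

/-- one solution with its bounds -/
structure Cg (Ω : Set E3) (R : ℝ) (lam mu : E3 → ℝ) (ζ : Fin 3 → ℂ) (U : Fin 3 → Sm) (d : Sm)
    (C t : ℝ) (u : Fin 3 → E3 → ℂ) (du : Fin 3 → Fin 3 → E3 → ℂ) (p : E3 → ℂ)
    (dp : Fin 3 → E3 → ℂ) : Prop where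
  hu : CH1 (Metric.ball 0 R) u du
  hs : CSol (Metric.ball 0 R) lam mu du
  hp : MemLp p 2 (volume.restrict (Metric.ball (0 : E3) R))
  hdp : ∀ i, MemLp (dp i) 2 (volume.restrict (Metric.ball (0 : E3) R))
  hw : ∀ i, WDc (Metric.ball 0 R) i p (dp i)
  hd : ∀ᵐ x ∂(volume.restrict (Metric.ball (0 : E3) R)), p x = ∑ i, du i i x
  b1 : ∀ j, ∫ x in Ω, ‖(ex ζ t : E3 → ℂ) x * u j x - (U j : E3 → ℂ) x‖ ^ 2 ≤ C / t ^ 2
  b2 : ∫ x in Ω, ‖(ex ζ t : E3 → ℂ) x * p x - (d : E3 → ℂ) x‖ ^ 2 ≤ C / t ^ 2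
  c1 : ∫ x in Ω, ‖(ex ζ t : E3 → ℂ) x * p x‖ ^ 2 ≤ t ^ 2 * C
  c2 : ∀ i, ∫ x in Ω, ‖(ex ζ t : E3 → ℂ) x * dp i x‖ ^ 2 ≤ t ^ 2 * C
  c3 : ∀ i j, ∫ x in Ω, ‖(ex ζ t : E3 → ℂ) x * du i j x‖ ^ 2 ≤ t ^ 2 * C

variable {ζ : Fin 3 → ℂ} {R : ℝ}

theorem exists_cg (hl : ContDiff ℝ ∞ lam) (hm : ContDiff ℝ ∞ mu) (p1 : ∀ x, 0 < mu x)
    (q1 : ∀ x, 0 < lam x + mu x) (hζ : dot ζ ζ = 0) (hζ0 : ζ ≠ 0) (hR : 0 < R)
    (hs : Ω ⊆ Metric.ball 0 R) (U : Fin 3 → Sm) (d : Sm)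
    (hTr : Transport ζ lam mu (4 * R) (fun j => (U j : E3 → ℂ)) d) :
    ∃ C₀ T : ℝ, ∀ C, C₀ ≤ C → ∀ t, T ≤ t → 1 ≤ t → ∃ u du p dp, Cg Ω R lam mu ζ U d C t u du p dp := by
  obtain ⟨C, T, hC⟩ := CGO1 lam mu hl hm p1 q1 R hR ζ hζ hζ0
    (fun j => (U j : E3 → ℂ)) d (fun j => sm_cd (U j)) (sm_cd d) hTr
  have hB : Bornology.IsBounded (Metric.ball (0 : E3) R) := Metric.isBounded_ball
  obtain ⟨D, hD⟩ : ∃ D : Sm → ℝ, ∀ f, D f = ∫ x in Metric.ball (0 : E3) R, ‖(f : E3 → ℂ) x‖ ^ 2 :=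
    ⟨_, fun _ => rfl⟩
  have hD0 : ∀ f, 0 ≤ D f := fun f => by rw [hD]; exact integral_nonneg fun _ => by positivity
  obtain ⟨Z, hZ1, hZ⟩ : ∃ Z, 1 ≤ Z ∧ ∀ i, ‖ζ i‖ ^ 2 ≤ Z := ⟨1 + ‖ζ‖ ^ 2, by simp, fun i =>
    (pow_le_pow_left₀ (norm_nonneg _) (norm_le_pi_norm ζ i) 2).trans (by simp)⟩
  obtain ⟨S, hS1, hS2⟩ : ∃ S, D d ≤ S ∧ ∀ j, D (U j) ≤ S := ⟨D d + ∑ j, D (U j),
    le_add_of_nonneg_right (Finset.sum_nonneg fun j _ => hD0 _), fun j => le_add_of_nonneg_of_le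
      (hD0 _) (Finset.single_le_sum (fun j _ => hD0 (U j)) (Finset.mem_univ j))⟩
  have hS0 := (hD0 d).trans hS1
  refine ⟨2 * |C| + 2 * (Z * S), T, fun C' hC' t ht ht1 => ?_⟩
  obtain ⟨u, du, p, dp, hu, hsol, hp, hdp, hwp, hdiv, b1, b2, b3, b4⟩ := hC t ht
  have t1 : 1 ≤ t ^ 2 := one_le_pow₀ ht1
  have k0 : 0 ≤ Z * S := by positivity
  have k1 : C / t ^ 2 ≤ C' / t ^ 2 := by
    gcongr
    linarith [le_abs_self C, abs_nonneg C]
  have mm : ∀ {f : E3 → ℂ} (g : Sm), MemLp f 2 (volume.restrict (Metric.ball (0 : E3) R)) →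
      MemLp (fun x => (ex ζ t : E3 → ℂ) x * f x - (g : E3 → ℂ) x) 2
        (volume.restrict (Metric.ball (0 : E3) R)) := fun g hf =>
    (TL.memLp_mul_cont hB (sm_cont _) hf).sub (cont_memLp_restrict hB (sm_cont g))
  have k2 : ∀ {f : E3 → ℂ} (g : Sm) (c : ℂ), MemLp f 2 (volume.restrict (Metric.ball (0 : E3) R)) →
      ∫ x in Metric.ball (0 : E3) R, ‖(ex ζ t : E3 → ℂ) x * f x - c * (g : E3 → ℂ) x‖ ^ 2 ≤ |C| →
      ‖c‖ ^ 2 ≤ t ^ 2 * Z → D g ≤ S → ∫ x in Ω, ‖(ex ζ t : E3 → ℂ) x * f x‖ ^ 2 ≤ t ^ 2 * C' := by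
    intro f g c hf h h1 h2
    refine (bd_conj hB hs ζ t hf g c h (hD g)).trans ?_
    have h3 := mul_le_mul h1 h2 (hD0 g) (by positivity)
    have h4 := mul_le_mul_of_nonneg_left hC' (sq_nonneg t)
    nlinarith [abs_nonneg C]
  have k3 : ∀ i, ‖(t : ℂ) * ζ i‖ ^ 2 ≤ t ^ 2 * Z := fun i => by
    rw [norm_mul, mul_pow, Complex.norm_real, Real.norm_eq_abs, sq_abs]
    exact mul_le_mul_of_nonneg_left (hZ i) (sq_nonneg t)
  refine ⟨u, du, p, dp, hu, hsol, hp, hdp, hwp, hdiv,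
    fun j => (sq_mono_set hs (mm (U j) (hu.val_mem j))).trans ((b1 j).trans k1),
    (sq_mono_set hs (mm d hp)).trans (b3.trans k1), k2 d 1 hp ?_ (by simp; nlinarith) hS1,
    fun i => k2 d _ (hdp i) ((b4 i).trans (le_abs_self C)) (k3 i) hS1,
    fun i j => k2 (U j) _ (hu.der_mem i j) ((b2 i j).trans (le_abs_self C)) (k3 i) (hS2 j)⟩
  simp only [one_mul]
  exact b3.trans ((div_le_div_of_nonneg_right (le_abs_self C) (sq_nonneg t)).trans
    (div_le_self (abs_nonneg C) t1))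

theorem ev_sum (c : Fin N → ℝ) (f : Fin N → Sm) (x : E3) :
    ((∑ k, K (c k) * f k : Sm) : E3 → ℂ) x = ∑ k, c k * (f k : E3 → ℂ) x := by
  simp [K_apply]

theorem cg_sum (hb : Bornology.IsBounded Ω) (hl : Continuous lam) (hm : Continuous mu)
    (hs : Ω ⊆ Metric.ball 0 R) {U : Fin N → Fin 3 → Sm} {d : Fin N → Sm} {C t : ℝ}
    {u : Fin N → Fin 3 → E3 → ℂ} {du : Fin N → Fin 3 → Fin 3 → E3 → ℂ} {p : Fin N → E3 → ℂ}
    {dp : Fin N → Fin 3 → E3 → ℂ}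
    (h : ∀ k, Cg Ω R lam mu ζ (U k) (d k) C t (u k) (du k) (p k) (dp k)) {c : Fin N → ℝ}
    (hc : ∀ k, |c k| ≤ 1) :
    Cg Ω R lam mu ζ (fun j => ∑ k, K (c k) * U k j) (∑ k, K (c k) * d k) (N * (N * C)) t
      (fun j x => ∑ k, c k * u k j x) (fun i j x => ∑ k, c k * du k i j x)
      (fun x => ∑ k, c k * p k x) fun i x => ∑ k, c k * dp k i x := by
  have hB : Bornology.IsBounded (Metric.ball (0 : E3) R) := Metric.isBounded_ball
  have mm : ∀ {f : E3 → ℂ}, MemLp f 2 (volume.restrict (Metric.ball (0 : E3) R)) →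
      MemLp (fun x => (ex ζ t : E3 → ℂ) x * f x) 2 (volume.restrict Ω) := fun hf =>
    (TL.memLp_mul_cont hB (sm_cont _) hf).mono_measure (Measure.restrict_mono hs le_rfl)
  have kb : ∀ {f : Fin N → E3 → ℂ} {g : Fin N → Sm},
      (∀ k, MemLp (f k) 2 (volume.restrict (Metric.ball (0 : E3) R))) →
      (∀ k, ∫ x in Ω, ‖(ex ζ t : E3 → ℂ) x * f k x - (g k : E3 → ℂ) x‖ ^ 2 ≤ C / t ^ 2) →
      ∫ x in Ω, ‖(ex ζ t : E3 → ℂ) x * ∑ k, c k * f k x - ((∑ k, K (c k) * g k : Sm) : E3 → ℂ) x‖ ^ 2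
        ≤ N * (N * C) / t ^ 2 := fun {f g} hf hg => by
    refine le_trans (le_of_eq ?_) ((int_sum_le hc (fun k =>
      (mm (hf k)).sub (cont_memLp_restrict hb (sm_cont (g k)))) hg).trans_eq (by ring))
    simp only [ev_sum, Pi.sub_apply, mul_sub, Finset.sum_sub_distrib, Finset.mul_sum,
      mul_left_comm ((ex ζ t : E3 → ℂ) _)]
  have kc : ∀ {f : Fin N → E3 → ℂ}, (∀ k, MemLp (f k) 2 (volume.restrict (Metric.ball (0 : E3) R))) →
      (∀ k, ∫ x in Ω, ‖(ex ζ t : E3 → ℂ) x * f k x‖ ^ 2 ≤ t ^ 2 * C) →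
      ∫ x in Ω, ‖(ex ζ t : E3 → ℂ) x * ∑ k, c k * f k x‖ ^ 2 ≤ t ^ 2 * (N * (N * C)) :=
    fun {f} hf hg => by
      refine le_trans (le_of_eq ?_) ((int_sum_le hc (fun k => mm (hf k)) hg).trans_eq (by ring))
      simp only [Finset.mul_sum, mul_left_comm ((ex ζ t : E3 → ℂ) _)]
  refine ⟨⟨fun j => mem_sum c fun k => (h k).hu.val_mem j,
    fun i j => mem_sum c fun k => (h k).hu.der_mem i j, fun i j => wdc_sum hB c
      (fun k => (h k).hu.val_mem j) (fun k => (h k).hu.der_mem i j) fun k => (h k).hu.weak i j⟩,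
    csol_sum hB hl hm c (fun k => (h k).hu.der_mem) fun k => (h k).hs, mem_sum c fun k => (h k).hp,
    fun i => mem_sum c fun k => (h k).hdp i, fun i => wdc_sum hB c (fun k => (h k).hp)
      (fun k => (h k).hdp i) fun k => (h k).hw i, ?_,
    fun j => kb (fun k => (h k).hu.val_mem j) fun k => (h k).b1 j,
    kb (fun k => (h k).hp) fun k => (h k).b2, kc (fun k => (h k).hp) fun k => (h k).c1,
    fun i => kc (fun k => (h k).hdp i) fun k => (h k).c2 i,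
    fun i j => kc (fun k => (h k).hu.der_mem i j) fun k => (h k).c3 i j⟩
  filter_upwards [eventually_all.2 fun k => (h k).hd] with x hx
  rw [Finset.sum_comm]
  simp only [hx, Finset.mul_sum]

theorem data_fam (ho : IsOpen Ω) (hb : Bornology.IsBounded Ω) (h1 : SC Ω lam₁ mu₁)
    (h2 : SC Ω lam₂ mu₂) (p1 : ∀ x, 0 < mu₁ x) (q1 : ∀ x, 0 < lam₁ x + mu₁ x)
    (p2 : ∀ x, 0 < mu₂ x) (q2 : ∀ x, 0 < lam₂ x + mu₂ x) (hF : Fam N Ω lam₁ mu₁ lam₂ mu₂)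
    (hbd : ∀ x ∈ frontier Ω, mu₁ x = mu₂ x ∧ lam₁ x = lam₂ x ∧
      fderiv ℝ mu₁ x = fderiv ℝ mu₂ x ∧ fderiv ℝ lam₁ x = fderiv ℝ lam₂ x)
    (hζ : dot ζ ζ = 0) (hζ0 : ζ ≠ 0) (hR : 0 < R) (hcl : closure Ω ⊆ Metric.ball 0 R)
    (U : Fin N → Fin 3 → Sm) (d : Fin N → Sm)
    (hTr : ∀ k, Transport ζ lam₁ mu₁ (4 * R) (fun j => (U k j : E3 → ℂ)) (d k)) :
    ∃ M T : ℝ, ∀ t : ℝ, T ≤ t → 0 < t ∧ ∃ c : Fin N → ℝ, ‖c‖ = 1 ∧ ∃ u du p v dv,
      Dt Ω lam₁ mu₁ lam₂ mu₂ ζ (fun j => ∑ k, K (c k) * U k j) (∑ k, K (c k) * d k) M t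
        u du p v dv := by
  have hs : Ω ⊆ Metric.ball (0 : E3) R := subset_closure.trans hcl
  choose C₀ T hC using fun k => exists_cg h1.lam_smooth h1.mu_smooth p1 q1 hζ hζ0 hR hs _ _ (hTr k)
  obtain ⟨CB, τ₀, hCB, hτ₀, hTB⟩ := TLB Ω lam₁ mu₁ lam₂ mu₂ R ho hb h1.lam_smooth
    h1.mu_smooth h2.lam_smooth h2.mu_smooth p1 q1 p2 q2 hbd hcl
  have hre : 0 < ‖reV ζ‖ := norm_pos_iff.mpr (reV_ne_zero hζ hζ0)
  obtain ⟨C, hCd⟩ : ∃ C, C = N * (N * ‖C₀‖) := ⟨_, rfl⟩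
  have hC0 : 0 ≤ C := by rw [hCd]; positivity
  have hWp : 0 ≤ CB * (13 * C) / ‖reV ζ‖ ^ 2 := by positivity
  refine ⟨C + CB * (13 * C) / ‖reV ζ‖ ^ 2, max ‖T‖ (max 1 (τ₀ / ‖reV ζ‖)), fun t ht => ?_⟩
  have ht2 : 1 ≤ t := ((le_max_left _ _).trans (le_max_right _ _)).trans ht
  have ht3 : τ₀ / ‖reV ζ‖ ≤ t := ((le_max_right _ _).trans (le_max_right _ _)).trans ht
  have htp : 0 < t := by linarith
  choose u du p dp hg using fun k => hC k ‖C₀‖ ((le_abs_self _).trans (norm_le_pi_norm C₀ k)) t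
    (((le_abs_self _).trans (norm_le_pi_norm T k)).trans ((le_max_left _ _).trans ht)) ht2
  obtain ⟨c, hc, gr, gi⟩ := hF (fun k => (ch1_mono hs (hg k).hu).rePart ho hb)
    fun k => (ch1_mono hs (hg k).hu).imPart ho hb
  have H := cg_sum hb h1.lam_smooth.continuous h1.mu_smooth.continuous hs hg (exists_top hc).1
  rw [← hCd] at H
  obtain ⟨v, dv, hv, htr⟩ := transfer_at ho hb h1 h2 (ch1_mono hs H.hu) (csol_mono hs H.hs)
    (by simp only [Complex.re_sum, Complex.re_ofReal_mul]; exact gr)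
    (by simp only [Complex.im_sum, Complex.im_ofReal_mul]; exact gi)
  refine ⟨htp, c, hc, ?_⟩
  revert htr H
  generalize (fun j x => ∑ k, c k * u k j x) = u'
  generalize (fun x => ∑ k, c k * p k x) = p'
  generalize (fun i x => ∑ k, c k * dp k i x) = dp'
  intro H htr
  obtain ⟨du', hdu⟩ : ∃ du' : Fin 3 → Fin 3 → E3 → ℂ, du' = fun i j x => ∑ k, c k * du k i j x :=
    ⟨_, rfl⟩
  replace htr : ∀ g : Fin 3 → E3 → ℂ, (∀ j, ContDiff ℝ ∞ (g j)) →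
      cform Ω lam₂ mu₂ (fun i j x => du' i j x + dv i j x) (fun i j => pd i (g j)) =
      cform Ω lam₁ mu₁ du' (fun i j => pd i (g j)) := by rw [hdu]; exact htr
  rw [← hdu] at H
  clear hdu
  have hbig : τ₀ ≤ ‖(-t) • reV ζ‖ := by
    rw [norm_smul, Real.norm_eq_abs, abs_neg, abs_of_pos htp]
    rwa [div_le_iff₀ hre] at ht3
  have key := hTB ((-t) • reV ζ) hbig u' du' p' dp' v dv H.hu H.hs H.hp H.hdp H.hw H.hd hv htr
  have ew : ∀ x, Real.exp (2 * ⟪(-t) • reV ζ, x⟫_ℝ) * ‖∑ i, dv i i x‖ ^ 2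
      = ‖(ex ζ t : E3 → ℂ) x * ∑ i, dv i i x‖ ^ 2 := fun x =>
    weight_eq ζ t (fun x => ∑ i, dv i i x) x
  simp only [weight_eq, ew] at key
  have c5 := bound_v (W := 13 * C) htp hre hCB key (by
    simp only [Fin.sum_univ_three]
    linarith [H.c1, H.c2 0, H.c2 1, H.c2 2, H.c3 0 0, H.c3 0 1, H.c3 0 2, H.c3 1 0, H.c3 1 1,
      H.c3 1 2, H.c3 2 0, H.c3 2 1, H.c3 2 2])
  have n1 : ∀ g : E3 → ℂ, 0 ≤ ∫ x, ‖g x‖ ^ 2 := fun g => integral_nonneg fun _ => by positivity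
  have hMt : C / t ^ 2 ≤ (C + CB * (13 * C) / ‖reV ζ‖ ^ 2) / t ^ 2 := by
    gcongr
    linarith
  have hu' := ch1_mono hs H.hu
  refine ⟨u', du', p', v, dv, hu'.val_mem, hu'.der_mem,
    H.hp.mono_measure (Measure.restrict_mono hs le_rfl), fun i j η hη => ibp_IO ho hb hcl
      (H.hu.val_mem j) (H.hu.der_mem i j) (H.hu.weak i j) η hη,
    ae_mono (Measure.restrict_mono hs le_rfl) H.hd, hv, htr, fun j => (H.b1 j).trans hMt,
    H.b2.trans hMt, fun j => ?_, ?_⟩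
  · rw [setIntegral_eq_integral_of_forall_compl_eq_zero (fun x hx => by
      simp [(hv j).val_zero x hx])]
    have := Finset.single_le_sum (f := fun j => ∫ x, ‖(ex ζ t : E3 → ℂ) x * v j x‖ ^ 2)
      (fun j _ => n1 _) (Finset.mem_univ j)
    linarith only [this, n1 fun x => (ex ζ t : E3 → ℂ) x * ∑ i, dv i i x, c5, hC0]
  · rw [setIntegral_eq_integral_of_forall_compl_eq_zero (fun x hx => by
      simp [(hv _).der_zero _ x hx])]
    have : 0 ≤ ∑ j, ∫ x, ‖(ex ζ t : E3 → ℂ) x * v j x‖ ^ 2 := Finset.sum_nonneg fun j _ => n1 _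
    linarith only [this, c5, hC0]

end Vale.Agent.N136
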