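import Vale.Agent.P136S.TDefs

open scoped ContDiff

namespace Vale.Agent.N136

open Vale.Agent.P136.Elasticity

/-- Admissible pairs of Lame moduli: both are `C^∞` on the closed set `closure Ω`, and `μ > 0`,
`3 λ + 2 μ > 0` there. -/
def Adm (Ω : Set E3) (lam mu : E3 → ℝ) : Prop :=
  ContDiffOn ℝ ∞ lam (closure Ω) ∧ ContDiffOn ℝ ∞ mu (closure Ω) ∧
    ∀ x ∈ closure Ω, 0 < mu x ∧ 0 < 3 * lam x + 2 * mu x

end Vale.Agent.N136
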