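import Vale.Agent.P136.H413.Energy

set_option linter.all false

/-! Linear combinations in `H¹`; the energy comparison for one boundary displacement. -/

open MeasureTheory Filter Topology
open scoped ContDiff InnerProductSpace

namespace Vale.Agent.N136

open Vale.Agent.P136 Vale.Agent.P136.BD Vale.Agent.P136.BD.Rough
open Vale.Agent.P136.Exist.Rough (SC)

/-- The two maps agree on the displacement with values `V` and gradient `D`, tested against smooth
fields. -/
def Good (Ω : Set E3) (lam₁ mu₁ lam₂ mu₂ : E3 → ℝ) (D : Fin 3 → Fin 3 → E3 → ℝ)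
    (V : Fin 3 → E3 → ℝ) : Prop :=
  ∀ f g : H1 Ω, f.der = D → f.val = V →
    (∃ γ : Fin 3 → E3 → ℝ, (∀ j, ContDiff ℝ ∞ (γ j)) ∧ g.der = fun i j => pd i (γ j)) →
    ∀ r₁ r₂, DN Ω lam₁ mu₁ f g r₁ → DN Ω lam₂ mu₂ f g r₂ → r₁ = r₂

/-- In every two families of `n` displacements the same nontrivial combination is good. -/
def Fam (n : ℕ) (Ω : Set E3) (lam₁ mu₁ lam₂ mu₂ : E3 → ℝ) : Prop :=
  ∀ F F' : Fin n → H1 Ω, ∃ c : Fin n → ℝ, ‖c‖ = 1 ∧
    Good Ω lam₁ mu₁ lam₂ mu₂ (fun i j x => ∑ k, c k * (F k).der i j x)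
      (fun j x => ∑ k, c k * (F k).val j x) ∧
    Good Ω lam₁ mu₁ lam₂ mu₂ (fun i j x => ∑ k, c k * (F' k).der i j x)
      (fun j x => ∑ k, c k * (F' k).val j x)

theorem Fam.symm {n : ℕ} {Ω : Set E3} {lam₁ mu₁ lam₂ mu₂ : E3 → ℝ}
    (h : Fam n Ω lam₁ mu₁ lam₂ mu₂) : Fam n Ω lam₂ mu₂ lam₁ mu₁ := fun F F' => by
  obtain ⟨c, h1, h2, h3⟩ := h F F'
  exact ⟨c, h1, fun f g a b d _ _ e e' => (h2 f g a b d _ _ e' e).symm,
    fun f g a b d _ _ e e' => (h3 f g a b d _ _ e' e).symm⟩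

theorem fq_sum {ι : Type*} (s : Finset ι) (c : ι → ℝ) (l m : ℝ) (A : ι → Fin 3 → Fin 3 → ℝ)
    (B : Fin 3 → Fin 3 → ℝ) :
    fq l m (fun i j => ∑ k ∈ s, c k * A k i j) B = ∑ k ∈ s, c k * fq l m (A k) B := by
  classical
  induction s using Finset.induction_on with
  | empty => simp [fq]
  | insert a s ha ih =>
    simp only [Finset.sum_insert ha, ← ih]
    simp only [fq, Fin.sum_univ_three]
    ring

theorem form_sum {ι : Type*} [Fintype ι] {Ω : Set E3} (hm : MeasurableSet Ω)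
    (hb : Bornology.IsBounded Ω) {lam mu : E3 → ℝ} (hl : Continuous lam) (hmu : Continuous mu)
    (c : ι → ℝ) {G : ι → Fin 3 → Fin 3 → E3 → ℝ} {H : Fin 3 → Fin 3 → E3 → ℝ}
    (hG : ∀ k, MemG Ω (G k)) (hH : MemG Ω H) :
    form Ω lam mu (fun i j x => ∑ k, c k * G k i j x) H = ∑ k, c k * form Ω lam mu (G k) H := by
  simp only [BD.form_eq, fq_sum, ← integral_const_mul]
  exact integral_finsetSum _ fun k _ => (form_int hm hb hl hmu (hG k) hH).const_mul _

theorem sq_sum_le {ι : Type*} [Fintype ι] {c a : ι → ℝ} {δ : ℝ} (hc : ∀ k, |c k| ≤ δ) :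
    (∑ k, c k * a k) ^ 2 ≤ Fintype.card ι * δ ^ 2 * ∑ k, a k ^ 2 := by
  refine (Finset.sum_mul_sq_le_sq_mul_sq _ c a).trans (mul_le_mul_of_nonneg_right ?_
    (Finset.sum_nonneg fun _ _ => sq_nonneg _))
  refine (Finset.sum_le_card_nsmul _ _ (δ ^ 2) fun k _ => ?_).trans (by simp)
  exact sq_le_sq' (abs_le.1 (hc k)).1 (abs_le.1 (hc k)).2

theorem eq2_sum {ι : Type*} [Fintype ι] {c : ι → ℝ} (hc : ∀ k, |c k| ≤ 1)
    (A : ι → Fin 3 → Fin 3 → ℝ) :
    eq2 (fun i j => ∑ k, c k * A k i j) ≤ Fintype.card ι * ∑ k, eq2 (A k) := by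
  unfold eq2
  rw [Finset.sum_comm (s := (Finset.univ : Finset ι)), Finset.mul_sum]
  refine Finset.sum_le_sum fun i _ => ?_
  rw [Finset.sum_comm (s := (Finset.univ : Finset ι)), Finset.mul_sum]
  refine Finset.sum_le_sum fun j _ => ?_
  have := sq_sum_le (a := fun k => (A k i j + A k j i) / 2) hc
  rw [one_pow, mul_one] at this
  refine le_trans (le_of_eq ?_) this
  rw [← Finset.sum_add_distrib, Finset.sum_div]
  congr 1
  exact Finset.sum_congr rfl fun k _ => by ring

/-- The energy comparison inequality for one boundary displacement (adapted from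
`energy_ineq'`). -/
theorem energy_at {Ω : Set E3} (ho : IsOpen Ω)
    (hb : Bornology.IsBounded Ω) {lam₁ mu₁ lam₂ mu₂ : E3 → ℝ} (h1 : SC Ω lam₁ mu₁)
    (h2 : SC Ω lam₂ mu₂) (x0 : E3) :
    ∃ C : ℝ, 0 < C ∧ ∀ (Γ : Fin 3 → E3 → ℝ) (hΓ : ∀ j, ContDiff ℝ ∞ (Γ j)),
      Good Ω lam₁ mu₁ lam₂ mu₂ (fun i j => pd i (Γ j)) Γ →
      (∀ φ : Fin 3 → E3 → ℝ, (∀ j, IsTest Ω (φ j)) →
        form Ω (fun _ => lam₂ x0) (fun _ => mu₂ x0) (fun i j => pd i (Γ j))
          (fun i j => pd i (φ j)) = 0) →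
      - C * (∫ x in Ω, ‖x - x0‖ ^ 2 * eq2 (fun i j => pd i (Γ j) x)) ≤
        ∫ x in Ω, fq (lam₁ x - lam₂ x) (mu₁ x - mu₂ x) (fun i j => pd i (Γ j) x)
          (fun i j => pd i (Γ j) x) := by
  have hm : MeasurableSet Ω := ho.measurableSet
  obtain ⟨c1, hc1, hco1⟩ := h1.coer
  obtain ⟨c, hc, hco2⟩ := h2.coer
  -- Lipschitz bound
  have hLip : ∃ K : ℝ, 0 < K ∧ ∀ x ∈ Ω, |lam₂ x - lam₂ x0| ≤ K * ‖x - x0‖ ∧
      |mu₂ x - mu₂ x0| ≤ K * ‖x - x0‖ := by
    obtain ⟨R, hR⟩ := hb.subset_closedBall x0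
    have aux : ∀ f : E3 → ℝ, ContDiff ℝ ∞ f → ∃ K : ℝ, 0 ≤ K ∧ ∀ x ∈ Ω,
        |f x - f x0| ≤ K * ‖x - x0‖ := by
      intro f hf
      have hcont : Continuous (fun x => ‖fderiv ℝ f x‖) :=
        (hf.continuous_fderiv (by simp)).norm
      obtain ⟨K, hK⟩ := (isCompact_closedBall x0 R).bddAbove_image hcont.continuousOn
      refine ⟨max K 0, le_max_right _ _, fun x hx => ?_⟩
      have hx' := hR hx
      have hx0 : x0 ∈ Metric.closedBall x0 R := by
        rw [Metric.mem_closedBall, dist_self]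
        exact le_trans dist_nonneg (Metric.mem_closedBall.mp hx')
      have := (convex_closedBall x0 R).norm_image_sub_le_of_norm_fderiv_le (𝕜 := ℝ) (f := f)
        (C := max K 0) (fun y _ => (hf.differentiable (by simp)) y)
        (fun y hy => (hK ⟨y, hy, rfl⟩).trans (le_max_left _ _)) hx0 hx'
      simpa [Real.norm_eq_abs] using this
    obtain ⟨K1, hK1, hK1'⟩ := aux lam₂ h2.lam_smooth
    obtain ⟨K2, hK2, hK2'⟩ := aux mu₂ h2.mu_smooth
    refine ⟨K1 + K2 + 1, by linarith, fun x hx => ⟨(hK1' x hx).trans ?_, (hK2' x hx).trans ?_⟩⟩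
    · exact mul_le_mul_of_nonneg_right (by linarith) (norm_nonneg _)
    · exact mul_le_mul_of_nonneg_right (by linarith) (norm_nonneg _)
  obtain ⟨K, hK, hKx⟩ := hLip
  refine ⟨25 * K ^ 2 / c, by positivity, ?_⟩
  intro Γ hΓ hG hfroz
  set g : H1 Ω := smoothH1 hb Γ hΓ with hg
  have hgder : g.der = fun i j => pd i (Γ j) := rfl
  obtain ⟨u1, hu1t, hu1⟩ := Exist.Rough.exists_dirichlet ho hb h1 g
  have hDN1 : DN Ω lam₁ mu₁ g g (form Ω lam₁ mu₁ u1.der g.der) := ⟨u1, hu1t, hu1, rfl⟩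
  obtain ⟨u2, hu2t, hu2⟩ := Exist.Rough.exists_dirichlet ho hb h2 g
  have hr := hG g g rfl rfl ⟨Γ, hΓ, rfl⟩ _ _ hDN1 ⟨u2, hu2t, hu2, rfl⟩
  have cl1 := h1.lam_smooth.continuous
  have cm1 := h1.mu_smooth.continuous
  have cl2 := h2.lam_smooth.continuous
  have cm2 := h2.mu_smooth.continuous
  have mg : MemG Ω g.der := g.der_mem
  have mu1' : MemG Ω u1.der := u1.der_mem
  have mu2' : MemG Ω u2.der := u2.der_mem
  have o1 : form Ω lam₁ mu₁ u1.der u1.der = form Ω lam₁ mu₁ u1.der g.der :=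
    form_trace hm hb cl1 cm1 mu1' hu1 hu1t
  have o2 : form Ω lam₂ mu₂ u2.der u2.der = form Ω lam₂ mu₂ u2.der g.der :=
    form_trace hm hb cl2 cm2 mu2' hu2 hu2t
  have sq0 : ∀ D : Fin 3 → Fin 3 → E3 → ℝ, 0 ≤ ∑ i, ∑ j, ∫ x in Ω, (D i j x) ^ 2 := fun D =>
    Finset.sum_nonneg fun i _ => Finset.sum_nonneg fun j _ => integral_nonneg fun _ => sq_nonneg _
  -- Dirichlet principle in medium 1
  have m1 : form Ω lam₁ mu₁ u1.der g.der ≤ form Ω lam₁ mu₁ g.der g.der := by
    have hp : 0 ≤ form Ω lam₁ mu₁ (fun i j x => g.der i j x - u1.der i j x)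
        (fun i j x => g.der i j x - u1.der i j x) :=
      (mul_nonneg hc1.le (sq0 _)).trans (coer_diff hm hb cl1 cm1 hco1 (sameTrace_refl g) hu1t)
    rw [form_sub_right hm hb cl1 cm1 (mg.sub mu1') mg mu1', form_sub_left hm hb cl1 cm1 mg mg mu1',
      form_sub_left hm hb cl1 cm1 mu1' mg mu1', form_symm Ω lam₁ mu₁ g.der u1.der, o1] at hp
    linarith
  -- Pythagoras in medium 2
  have mz : MemG Ω (fun i j x => u2.der i j x - g.der i j x) := mu2'.sub mg
  have p2 : form Ω lam₂ mu₂ g.der g.der = form Ω lam₂ mu₂ u2.der g.der +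
      form Ω lam₂ mu₂ (fun i j x => u2.der i j x - g.der i j x)
        (fun i j x => u2.der i j x - g.der i j x) := by
    rw [form_sub_right hm hb cl2 cm2 mz mu2' mg, form_sub_left hm hb cl2 cm2 mu2' mu2' mg,
      form_sub_left hm hb cl2 cm2 mg mu2' mg, form_symm Ω lam₂ mu₂ g.der u2.der, o2]
    ring
  -- the correction
  have z1 : form Ω lam₂ mu₂ (fun i j x => u2.der i j x - g.der i j x)
        (fun i j x => u2.der i j x - g.der i j x) =
      - form Ω (fun x => lam₂ x - lam₂ x0) (fun x => mu₂ x - mu₂ x0) g.der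
        (fun i j x => u2.der i j x - g.der i j x) := by
    have hfr : form Ω (fun _ => lam₂ x0) (fun _ => mu₂ x0) g.der u2.der =
        form Ω (fun _ => lam₂ x0) (fun _ => mu₂ x0) g.der g.der :=
      form_trace hm hb continuous_const continuous_const mg hfroz hu2t
    rw [form_coef_sub hm hb cl2 cm2 continuous_const continuous_const mg mz,
      form_sub_right hm hb continuous_const continuous_const mg mu2' mg,
      form_sub_right hm hb cl2 cm2 mg mu2' mg,
      form_sub_right hm hb cl2 cm2 mz mu2' mg, form_sub_left hm hb cl2 cm2 mu2' mu2' mg,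
      form_sub_left hm hb cl2 cm2 mg mu2' mg, form_symm Ω lam₂ mu₂ g.der u2.der, o2, hfr]
    ring
  have hcz : c * ∑ i, ∑ j, ∫ x in Ω, (u2.der i j x - g.der i j x) ^ 2 ≤
      form Ω lam₂ mu₂ (fun i j x => u2.der i j x - g.der i j x)
        (fun i j x => u2.der i j x - g.der i j x) :=
    coer_diff hm hb cl2 cm2 hco2 hu2t (sameTrace_refl g)
  set Z := fun i j x => u2.der i j x - g.der i j x with hZ
  have iE := eq2_int mz
  have hcE : c * (∫ x in Ω, eq2 (fun i j => Z i j x)) ≤ form Ω lam₂ mu₂ Z Z := by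
    refine le_trans (mul_le_mul_of_nonneg_left ?_ hc.le) hcz
    have hs : ∀ i j, Integrable (fun x => (Z i j x) ^ 2) (volume.restrict Ω) := fun i j =>
      sq_int' (mz i j)
    have hSI : Integrable (fun x => ∑ i, ∑ j, (Z i j x) ^ 2) (volume.restrict Ω) :=
      integrable_finsetSum _ fun i _ => integrable_finsetSum _ fun j _ => hs i j
    have e : ∑ i, ∑ j, ∫ x in Ω, (Z i j x) ^ 2 = ∫ x in Ω, ∑ i, ∑ j, (Z i j x) ^ 2 := by
      rw [integral_finsetSum _ fun i _ => integrable_finsetSum _ fun j _ => hs i j]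
      exact Finset.sum_congr rfl fun i _ => (integral_finsetSum _ fun j _ => hs i j).symm
    have e' : ∑ i, ∑ j, ∫ x in Ω, (u2.der i j x - g.der i j x) ^ 2 =
        ∫ x in Ω, ∑ i, ∑ j, (Z i j x) ^ 2 := e
    rw [e']
    exact integral_mono iE hSI fun x => eq2_le_sum _
  have hxsq : Integrable (fun x => ‖x - x0‖ ^ 2 * eq2 (fun i j => g.der i j x))
      (volume.restrict Ω) := by
    obtain ⟨M, hM0, hM⟩ := coef_bdd hb (f := fun x => ‖x - x0‖ ^ 2) (by fun_prop)
    refine (eq2_int mg).bdd_mul (c := M) (by fun_prop) ?_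
    filter_upwards [ae_restrict_mem hm] with x hx
    exact hM x (subset_closure hx)
  have z2 : form Ω lam₂ mu₂ Z Z ≤ 25 * K ^ 2 / (2 * c) *
      (∫ x in Ω, ‖x - x0‖ ^ 2 * eq2 (fun i j => g.der i j x)) +
      c / 2 * ∫ x in Ω, eq2 (fun i j => Z i j x) := by
    have hb1 : form Ω lam₂ mu₂ Z Z ≤ ∫ x in Ω,
        (25 * K ^ 2 / (2 * c) * (‖x - x0‖ ^ 2 * eq2 (fun i j => g.der i j x)) +
          c / 2 * eq2 (fun i j => Z i j x)) := by
      rw [z1, BD.form_eq, ← integral_neg]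
      apply setIntegral_mono_on
      · exact (form_int hm hb (cl2.sub continuous_const) (cm2.sub continuous_const) mg mz).neg
      · exact (hxsq.const_mul _).add (iE.const_mul _)
      · exact hm
      · intro x hx
        obtain ⟨k1, k2⟩ := hKx x hx
        have hη : 0 < c / 5 := by positivity
        have e1 := fq_bound _ _ (K * ‖x - x0‖) k1 k2 (fun i j => g.der i j x)
          (fun i j => Z i j x) (c / 5) hη
        have e3 := neg_le_of_abs_le e1
        have e4 : 5 * (K * ‖x - x0‖) ^ 2 / (2 * (c / 5)) = 25 * K ^ 2 / (2 * c) * ‖x - x0‖ ^ 2 := by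
          field_simp
          ring
        rw [e4] at e3
        linarith only [e3]
    refine hb1.trans (le_of_eq ?_)
    have h5 := integral_add (hxsq.const_mul (25 * K ^ 2 / (2 * c))) (iE.const_mul (c / 2))
    rw [h5, integral_const_mul, integral_const_mul]
  have z3 : form Ω lam₂ mu₂ Z Z ≤ 25 * K ^ 2 / c *
      (∫ x in Ω, ‖x - x0‖ ^ 2 * eq2 (fun i j => g.der i j x)) := by
    have e : 25 * K ^ 2 / c * (∫ x in Ω, ‖x - x0‖ ^ 2 * eq2 (fun i j => g.der i j x)) =
      2 * (25 * K ^ 2 / (2 * c) * (∫ x in Ω, ‖x - x0‖ ^ 2 * eq2 (fun i j => g.der i j x))) := by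
      field_simp
    rw [e]
    linarith only [z2, hcE]
  have hfin : (∫ x in Ω, fq (lam₁ x - lam₂ x) (mu₁ x - mu₂ x) (fun i j => pd i (Γ j) x)
          (fun i j => pd i (Γ j) x)) = form Ω lam₁ mu₁ g.der g.der - form Ω lam₂ mu₂ g.der g.der := by
    rw [← form_coef_sub hm hb cl1 cm1 cl2 cm2 mg mg]
    rfl
  rw [hfin]
  have : (∫ x in Ω, ‖x - x0‖ ^ 2 * eq2 (fun i j => pd i (Γ j) x)) =
    ∫ x in Ω, ‖x - x0‖ ^ 2 * eq2 (fun i j => g.der i j x) := rfl
  rw [this]
  linarith only [z3, p2, m1, hr]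

open Metric

theorem lim_freq {S : Set ℝ} (hS : ∀ r1 > 0, ∃ r ∈ S, 0 < r ∧ r < r1) {a A r1 : ℝ} (hr1 : 0 < r1)
    (h : ∀ r ∈ S, 0 < r → r < r1 → a ≤ A * r) : a ≤ 0 := by
  by_contra hcon
  rw [not_le] at hcon
  obtain ⟨r, h1, h2, h3⟩ := hS (min r1 (a / (|A| + 1))) (lt_min hr1 (by positivity))
  have h4 := h r h1 h2 (h3.trans_le (min_le_left _ _))
  have h5 := h3.trans_le (min_le_right _ _)
  rw [lt_div_iff₀ (by positivity)] at h5
  nlinarith [le_abs_self A]

/-- the endgame along a set `S` of scales which accumulates at zero (adapted from `bd_end'`) -/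
theorem bd_freq {Ω : Set E3} (hΩo : IsOpen Ω) (hb : Bornology.IsBounded Ω) {x0 : E3} (hx : x0 ∈ frontier Ω) {n : E3}
    {r0 : ℝ} (hn : ‖n‖ = 1) (hr0 : 0 < r0)
    (hball : ∀ r, 0 < r → r < r0 → Metric.ball (x0 - (2 * r) • n) r ⊆ Ω)
    (hup : ∀ η > 0, ∃ K, 0 ≤ K ∧ ∀ x ∈ Ω, ⟪n, x - x0⟫_ℝ ≤ η * ‖x - x0‖ + K * ‖x - x0‖ ^ 2)
    (htan : ∀ f : E3 → ℝ, ContDiff ℝ ∞ f → (∀ z ∈ frontier Ω, f z = 0) → ∀ v, ⟪n, v⟫_ℝ = 0 →
        fderiv ℝ f x0 v = 0)
    {f : E3 → ℝ} (hf : ContDiff ℝ ∞ f) (P : ℝ → E3 → ℝ) {ε c1 C1 C2 : ℝ} {S : Set ℝ}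
    (hS : ∀ r1 > 0, ∃ r ∈ S, 0 < r ∧ r < r1)
    (hε : 0 < ε) (hε1 : ε ≤ 1) (hc1 : 0 < c1)
    (hPc : ∀ r ∈ S, 0 < r → r < r0 → Continuous (P r))
    (hP0 : ∀ r ∈ S, 0 < r → r < r0 → ∀ x ∈ Ω,
      0 ≤ P r x ∧ P r x ≤ C1 * (r ^ 4 * ((r + ‖x - x0‖) ^ 6)⁻¹))
    (hP1 : ∀ r ∈ S, 0 < r → r < r0 → ∀ x ∈ Metric.ball (x0 - (2 * r) • n) (ε * r),
      c1 * (r ^ 2)⁻¹ ≤ P r x)
    (hint : ∀ r ∈ S, 0 < r → r < r0 → - C2 * r ^ 3 ≤ ∫ x in Ω, f x * P r x) :
    0 ≤ f x0 ∧ ((∀ z ∈ frontier Ω, f z = 0) → fderiv ℝ f x0 n ≤ 0) := by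
  obtain ⟨D', hD'⟩ := hb.subset_closedBall x0
  set D := max D' 1 with hDdef
  have hD : ∀ x ∈ Ω, ‖x - x0‖ ≤ D := fun x hx => by
    rw [← dist_eq_norm]
    exact (hD' hx).trans (le_max_left _ _)
  obtain ⟨K, hK0, hK⟩ := taylor2 hf x0 D
  obtain ⟨Ce, hCe, herr⟩ := bd_err hb x0
  set v := (volume (ball (0 : E3) 1)).toReal with hv
  have hv0 : 0 < v := by
    rw [hv]
    exact ENNReal.toReal_pos (measure_ball_pos volume _ (by norm_num)).ne'
      measure_ball_lt_top.ne
  -- the second moment of `P`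
  have hmom : ∀ r ∈ S, 0 < r → r < min r0 1 →
      ∫ x in Ω, ‖x - x0‖ ^ 2 * P r x ≤ |C1| * Ce * r ^ 3 := by
    intro r hs hr hr1
    have hr2 : r < r0 := lt_of_lt_of_le hr1 (min_le_left _ _)
    have hr3 : r < 1 := lt_of_lt_of_le hr1 (min_le_right _ _)
    have hmc := maj_continuous x0 hr
    have hPr := hPc r hs hr hr2
    calc ∫ x in Ω, ‖x - x0‖ ^ 2 * P r x
        ≤ ∫ x in Ω, |C1| * (‖x - x0‖ ^ 2 * maj x0 r x) := by
          apply setIntegral_mono_on
          · exact integrableOn_of_cont hb (by fun_prop)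
          · exact integrableOn_of_cont hb (by fun_prop)
          · exact hΩo.measurableSet
          · intro x hx
            have h1 := (hP0 r hs hr hr2 x hx).2
            have h2 : C1 * maj x0 r x ≤ |C1| * maj x0 r x :=
              mul_le_mul_of_nonneg_right (le_abs_self _) (maj_nonneg x0 hr x)
            have h3 : P r x ≤ |C1| * maj x0 r x := h1.trans h2
            calc ‖x - x0‖ ^ 2 * P r x ≤ ‖x - x0‖ ^ 2 * (|C1| * maj x0 r x) := by gcongr
              _ = _ := by ring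
      _ = |C1| * ∫ x in Ω, ‖x - x0‖ ^ 2 * maj x0 r x := integral_const_mul _ _
      _ ≤ |C1| * (Ce * r ^ 3) := by
          apply mul_le_mul_of_nonneg_left _ (abs_nonneg _)
          exact herr r hr hr3
      _ = _ := by ring
  -- main inequality
  have main : ∀ (K' : ℝ) (m : ℝ → ℝ), 0 ≤ K' → (∀ r, 0 < r → 0 ≤ m r) →
      (∀ x ∈ Ω, 0 ≤ - f x + K' * ‖x - x0‖ ^ 2) →
      (∀ r, 0 < r → r < r0 → ∀ x ∈ ball (x0 - (2 * r) • n) (ε * r),
        m r ≤ - f x + K' * ‖x - x0‖ ^ 2) →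
      ∀ r ∈ S, 0 < r → r < min r0 1 →
        c1 * ε ^ 3 * v * m r * r ≤ (|C2| + K' * (|C1| * Ce)) * r ^ 3 := by
    intro K' m hK' hm hg0 hgm r hs hr hr1
    have hr2 : r < r0 := lt_of_lt_of_le hr1 (min_le_left _ _)
    have hPr := hPc r hs hr hr2
    have hfc := hf.continuous
    have h1 := bd_lower hΩo hb hr hε hε1 hc1 (hball r hr hr2)
      (g := fun x => - f x + K' * ‖x - x0‖ ^ 2) (P := P r) (by fun_prop) hPr
      (fun x hx => (hP0 r hs hr hr2 x hx).1) (hP1 r hs hr hr2) (hm r hr) hg0 (hgm r hr hr2)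
    have e : ∫ x in Ω, (- f x + K' * ‖x - x0‖ ^ 2) * P r x =
        - (∫ x in Ω, f x * P r x) + K' * ∫ x in Ω, ‖x - x0‖ ^ 2 * P r x := by
      rw [← integral_const_mul, ← integral_neg, ← integral_add]
      · congr 1
        funext x
        ring
      · exact integrableOn_of_cont hb (by fun_prop)
      · exact integrableOn_of_cont hb (by fun_prop)
    rw [e] at h1
    have h2 := hint r hs hr hr2
    have h3 := mul_le_mul_of_nonneg_left (hmom r hs hr hr1) hK'
    have h4 : C2 * r ^ 3 ≤ |C2| * r ^ 3 := by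
      apply mul_le_mul_of_nonneg_right (le_abs_self _) (by positivity)
    calc _ ≤ _ := h1
      _ ≤ |C2| * r ^ 3 + K' * (|C1| * Ce * r ^ 3) := by linarith only [h4, h3, h2]
      _ = _ := by ring
  have hrr : 0 < min r0 1 := lt_min hr0 one_pos
  constructor
  · by_contra hcon
    rw [not_le] at hcon
    set δ := - f x0 with hδ
    have hδ0 : 0 < δ := by linarith
    set L := ‖fderiv ℝ f x0‖ with hL
    set K' := L ^ 2 / (2 * δ) + K with hK'
    have hK'0 : 0 ≤ K' := by (clear * - hδ0 hK0; positivity)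
    have hfx : ∀ x, ‖x - x0‖ ≤ D → δ / 2 ≤ - f x + K' * ‖x - x0‖ ^ 2 := by
      intro x hx
      have h1 := (abs_le.1 (hK x hx)).2
      have h2 : |fderiv ℝ f x0 (x - x0)| ≤ L * ‖x - x0‖ := by
        rw [← Real.norm_eq_abs]
        exact (fderiv ℝ f x0).le_opNorm _
      have h3 := (abs_le.1 h2).2
      have h4 : L * ‖x - x0‖ ≤ δ / 2 + L ^ 2 / (2 * δ) * ‖x - x0‖ ^ 2 := by
        have e : δ / 2 + L ^ 2 / (2 * δ) * ‖x - x0‖ ^ 2 - L * ‖x - x0‖ =
            (L * ‖x - x0‖ - δ) ^ 2 / (2 * δ) := by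
          field_simp
          ring
        have : 0 ≤ (L * ‖x - x0‖ - δ) ^ 2 / (2 * δ) := by (clear * - hδ0; positivity)
        linarith only [this, e]
      rw [hK']
      linarith only [h4, h3, h1]
    have h5 := main K' (fun _ => δ / 2) hK'0 (fun _ _ => by positivity)
      (fun x hx => le_trans (by positivity) (hfx x (hD x hx)))
      (fun r hr hr2 x hx => hfx x (hD x (hball r hr hr2 (ball_subset_ball (by (by_contra nlg; linarith only [nlg, mul_nonneg (sub_nonneg.2 hε1) (le_of_lt (sub_pos.2 hr)), mul_nonneg (le_of_lt (sub_pos.2 (not_le.1 nlg))) (sub_nonneg.2 hε1), mul_pos (sub_pos.2 (not_le.1 nlg)) (sub_pos.2 hε)])) hx))))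
    have h6 : c1 * ε ^ 3 * v * (δ / 2) ≤ 0 := by
      apply lim_freq hS (A := |C2| + K' * (|C1| * Ce)) hrr
      intro r hs hr hr1
      have h7 := h5 r hs hr hr1
      have hr3 : r < 1 := lt_of_lt_of_le hr1 (min_le_right _ _)
      have h8 : 0 ≤ |C2| + K' * (|C1| * Ce) := by (clear * - hδ0 hK0 hCe; positivity)
      have h9 : c1 * ε ^ 3 * v * (δ / 2) * r ≤ ((|C2| + K' * (|C1| * Ce)) * r) * r := by
        calc _ ≤ _ := h7
          _ = ((|C2| + K' * (|C1| * Ce)) * r * r) * r := by ring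
          _ ≤ ((|C2| + K' * (|C1| * Ce)) * r * 1) * r := by gcongr
          _ = _ := by ring
      exact le_of_mul_le_mul_right h9 hr
    have : 0 < c1 * ε ^ 3 * v * (δ / 2) := by positivity
    linarith only [this, h6]
  · intro hfr
    by_contra hcon
    rw [not_le] at hcon
    set b := fderiv ℝ f x0 n with hbdef
    obtain ⟨Ce1, hCe1, herr1⟩ := bd_err1 hb x0
    have hmom1 : ∀ r ∈ S, 0 < r → r < min r0 1 →
        ∫ x in Ω, ‖x - x0‖ * P r x ≤ |C1| * Ce1 * r ^ 2 := by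
      intro r hs hr hr1
      have hr2 : r < r0 := lt_of_lt_of_le hr1 (min_le_left _ _)
      have hr3 : r < 1 := lt_of_lt_of_le hr1 (min_le_right _ _)
      have hmc := maj_continuous x0 hr
      have hPr := hPc r hs hr hr2
      calc ∫ x in Ω, ‖x - x0‖ * P r x
          ≤ ∫ x in Ω, |C1| * (‖x - x0‖ * maj x0 r x) := by
            apply setIntegral_mono_on
            · exact integrableOn_of_cont hb (by fun_prop)
            · exact integrableOn_of_cont hb (by fun_prop)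
            · exact hΩo.measurableSet
            · intro x hx
              have h1 := (hP0 r hs hr hr2 x hx).2
              have h2 : C1 * maj x0 r x ≤ |C1| * maj x0 r x :=
                mul_le_mul_of_nonneg_right (le_abs_self _) (maj_nonneg x0 hr x)
              have h3 : P r x ≤ |C1| * maj x0 r x := h1.trans h2
              calc ‖x - x0‖ * P r x ≤ ‖x - x0‖ * (|C1| * maj x0 r x) := by gcongr
                _ = _ := by ring
        _ = |C1| * ∫ x in Ω, ‖x - x0‖ * maj x0 r x := integral_const_mul _ _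
        _ ≤ |C1| * (Ce1 * r ^ 2) := by
            apply mul_le_mul_of_nonneg_left _ (abs_nonneg _)
            exact herr1 r hr hr3
        _ = _ := by ring
    set q := c1 * ε ^ 3 * v with hq
    have hq0 : 0 < q := by positivity
    set η := q / (2 * (|C1| * Ce1 + 1)) with hη
    have hA : 0 ≤ |C1| * Ce1 := by positivity
    have hη0 : 0 < η := by positivity
    have hηle : η * (|C1| * Ce1) ≤ q / 2 := by
      rw [hη, div_mul_eq_mul_div, div_le_div_iff₀ (by positivity) (by norm_num)]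
      linarith only [mul_nonneg hq0.le hA, hq0]
    obtain ⟨M, hM0, hM⟩ := hup η hη0
    have hnn : ⟪n, n⟫_ℝ = 1 := by rw [real_inner_self_eq_norm_sq, hn]; norm_num
    have hlin : ∀ w, fderiv ℝ f x0 w = b * ⟪n, w⟫_ℝ := by
      intro w
      have h1 := htan f hf hfr (w - ⟪n, w⟫_ℝ • n) (by
        rw [inner_sub_right, real_inner_smul_right, hnn]; ring)
      rw [map_sub, map_smul, smul_eq_mul, ← hbdef] at h1
      linarith
    set K' := K + b * M with hK'
    have hK'0 : 0 ≤ K' := by (clear * - hK0 hcon hM0; positivity)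
    have hfx : ∀ x, ‖x - x0‖ ≤ D → - (b * ⟪n, x - x0⟫_ℝ) + b * M * ‖x - x0‖ ^ 2 ≤
        - f x + K' * ‖x - x0‖ ^ 2 := by
      intro x hx
      have h1 := (abs_le.1 (hK x hx)).2
      rw [hfr x0 ‹_›, sub_zero, hlin] at h1
      rw [hK']
      linarith only [h1]
    have hrr : 0 < min r0 1 := lt_min hr0 one_pos
    have h6 : q * b - b * (η * (|C1| * Ce1)) ≤ 0 := by
      apply lim_freq hS (A := |C2| + K' * (|C1| * Ce)) hrr
      intro r hs hr hr1
      have hr2 : r < r0 := lt_of_lt_of_le hr1 (min_le_left _ _)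
      have hPr := hPc r hs hr hr2
      have hfc := hf.continuous
      have h1 := bd_lower hΩo hb hr hε hε1 hc1 (hball r hr hr2)
        (g := fun x => - f x + b * η * ‖x - x0‖ + K' * ‖x - x0‖ ^ 2) (P := P r)
        (m := b * r) (by fun_prop) hPr
        (fun x hx => (hP0 r hs hr hr2 x hx).1) (hP1 r hs hr hr2)
        (by (clear * - hcon hr; positivity))
        (fun x hx => by
          have h1 := hfx x (hD x hx)
          have h2 := mul_le_mul_of_nonneg_left (hM x hx) hcon.le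
          linarith only [h2, h1])
        (fun x hx => by
          have hx' : x ∈ ball (x0 - (2 * r) • n) r := by
            refine ball_subset_ball ?_ hx
            calc ε * r ≤ 1 * r := mul_le_mul_of_nonneg_right hε1 hr.le
              _ = r := one_mul r
          have hxΩ := hball r hr hr2 hx'
          have h1 := hfx x (hD x hxΩ)
          have h2 : ⟪n, x - x0⟫_ℝ ≤ - r := by
            have e : x - x0 = (x - (x0 - (2 * r) • n)) - (2 * r) • n := by abel
            rw [mem_ball, dist_eq_norm] at hx'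
            have h3 := real_inner_le_norm n (x - (x0 - (2 * r) • n))
            rw [hn, one_mul] at h3
            rw [e, inner_sub_right, real_inner_smul_right, hnn]
            linarith only [h3, hx']
          have h3 : 0 ≤ b * M * ‖x - x0‖ ^ 2 := by (clear * - hcon hM0; positivity)
          have h3' : 0 ≤ b * η * ‖x - x0‖ := by (clear * - hcon hη0; positivity)
          have h4 := mul_le_mul_of_nonneg_left h2 hcon.le
          linarith only [h1, h3, h3', h4])
      have e : ∫ x in Ω, (- f x + b * η * ‖x - x0‖ + K' * ‖x - x0‖ ^ 2) * P r x =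
          - (∫ x in Ω, f x * P r x) + b * η * (∫ x in Ω, ‖x - x0‖ * P r x) +
            K' * ∫ x in Ω, ‖x - x0‖ ^ 2 * P r x := by
        have i1 : IntegrableOn (fun x => f x * P r x) Ω := integrableOn_of_cont hb (by fun_prop)
        have i2 : IntegrableOn (fun x => ‖x - x0‖ * P r x) Ω :=
          integrableOn_of_cont hb (by fun_prop)
        have i3 : IntegrableOn (fun x => ‖x - x0‖ ^ 2 * P r x) Ω :=
          integrableOn_of_cont hb (by fun_prop)
        have i4 : IntegrableOn (fun x => -(f x * P r x) + b * η * (‖x - x0‖ * P r x)) Ω :=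
          i1.neg.add (i2.const_mul (b * η))
        have e1 : ∫ x in Ω, (-(f x * P r x) + b * η * (‖x - x0‖ * P r x)) =
            - (∫ x in Ω, f x * P r x) + b * η * (∫ x in Ω, ‖x - x0‖ * P r x) := by
          rw [← integral_const_mul, ← integral_neg]
          exact integral_add i1.neg (i2.const_mul (b * η))
        rw [← e1, ← integral_const_mul]
        have e2 := integral_add i4 (i3.const_mul K')
        rw [← e2]
        congr 1
        funext x
        ring
      rw [e, ← hv, ← hq] at h1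
      have h2 := hint r hs hr hr2
      have h3 := mul_le_mul_of_nonneg_left (hmom r hs hr hr1) hK'0
      have h3' := mul_le_mul_of_nonneg_left (hmom1 r hs hr hr1)
        (mul_nonneg hcon.le hη0.le)
      have h4 : C2 * r ^ 3 ≤ |C2| * r ^ 3 := by
        apply mul_le_mul_of_nonneg_right (le_abs_self _) (by positivity)
      have h9 : (q * b - b * (η * (|C1| * Ce1))) * r ^ 2 ≤
          ((|C2| + K' * (|C1| * Ce)) * r) * r ^ 2 := by
        have e1 : (q * b - b * (η * (|C1| * Ce1))) * r ^ 2 =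
            q * (b * r) * r - b * η * (|C1| * Ce1 * r ^ 2) := by ring
        have e2 : ((|C2| + K' * (|C1| * Ce)) * r) * r ^ 2 =
            |C2| * r ^ 3 + K' * (|C1| * Ce * r ^ 3) := by ring
        rw [e1, e2]
        linarith only [h1, h2, h3, h3', h4]
      exact le_of_mul_le_mul_right h9 (by positivity)
    have h7 : b * (η * (|C1| * Ce1)) ≤ b * (q / 2) := mul_le_mul_of_nonneg_left hηle hcon.le
    have h8 : 0 < b * q := mul_pos hcon hq0
    linarith only [h6, h7, h8]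

end Vale.Agent.N136
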