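import Vale.Agent.N136.Cgo
import Mathlib.MeasureTheory.Measure.Haar.Disintegration

set_option linter.all false

/-! The interior uniqueness for families. -/

open MeasureTheory Filter Topology
open scoped ContDiff InnerProductSpace

namespace Vale.Agent.N136

open Vale.Agent.P136 Vale.Agent.P136.TL Vale.Agent.P136.EX
open Vale.Agent.P136.Exist.Rough (SC)

variable {N : ℕ} {Ω : Set E3} {lam₁ mu₁ lam₂ mu₂ : E3 → ℝ} {ζ ζ' : Fin 3 → ℂ} {R : ℝ}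

theorem exists_dir (ζ : Fin 3 → ℂ) : ∃ e : E3, e ≠ 0 ∧ zx ζ e = 0 := by
  obtain ⟨e, h1, h2⟩ := (Submodule.ne_bot_iff _).1 (LinearMap.ker_ne_bot_of_finrank_lt
    (f := ∑ i, (LinearMap.toSpanSingleton ℝ ℂ (ζ i)).comp (EuclideanSpace.projₗ (𝕜 := ℝ) i))
    (by simp))
  exact ⟨e, h2, by simpa [zx, mul_comm] using h1⟩

theorem poly_ae {e : E3} (he : e ≠ 0) {c : Fin N → ℝ} (hc : c ≠ 0) :
    ∀ᵐ x : E3, ∑ k, c k * ⟪e, x⟫_ℝ ^ (k : ℕ) ≠ 0 := by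
  have hq : (∑ k : Fin N, Polynomial.C (c k) * Polynomial.X ^ (k : ℕ)) ≠ 0 := fun h =>
    hc (funext fun k => by
      simpa [Polynomial.coeff_C_mul_X_pow, Fin.val_inj] using congrArg (·.coeff k) h)
  have hf := Polynomial.finite_setOf_isRoot hq
  refine ((ae_comp_linearMap_mem_iff (innerₛₗ ℝ e) volume volume (fun y => ⟨(y / ‖e‖ ^ 2) • e, ?_⟩)
    hf.measurableSet.compl).2 (hf.countable.ae_notMem volume)).mono fun x hx => ?_
  · have := norm_ne_zero_iff.2 he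
    simp [inner_smul_right]
    field_simp
  · simpa [Polynomial.eval_finsetSum] using hx

theorem sum_lim (hb : Bornology.IsBounded Ω) {F : Filter ℕ} {c : ℕ → Fin N → ℝ} {c₀ : Fin N → ℝ}
    (hc : Tendsto c F (𝓝 c₀)) (f : Fin N → Sm) :
    Tendsto (fun n => ∫ x in Ω, ‖((∑ k, K (c n k) * f k : Sm) : E3 → ℂ) x -
      ((∑ k, K (c₀ k) * f k : Sm) : E3 → ℂ) x‖ ^ 2) F (𝓝 0) := by
  have t := (((tendsto_iff_norm_sub_tendsto_zero.1 hc).pow 2).const_mul (N : ℝ)).mul_const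
    (N * ‖fun k => ∫ x in Ω, ‖(f k : E3 → ℂ) x‖ ^ 2‖)
  simp only [ne_eq, OfNat.ofNat_ne_zero, not_false_eq_true, zero_pow, mul_zero, zero_mul] at t
  refine squeeze_zero (fun _ => integral_nonneg fun _ => by positivity) (fun n => ?_) t
  refine le_trans (le_of_eq ?_) (int_sum_le (fun k => norm_le_pi_norm (c n - c₀) k)
    (fun k => cont_memLp_restrict hb (sm_cont (f k))) fun k => (le_abs_self _).trans
      (norm_le_pi_norm (fun k => ∫ x in Ω, ‖(f k : E3 → ℂ) x‖ ^ 2) k))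
  simp only [ev_sum, Pi.sub_apply, Complex.ofReal_sub, sub_mul, Finset.sum_sub_distrib]

theorem ssol_mul {mu a : E3 → ℝ} {h G z : Sm} (π : Sm) (hπ : DD ζ π = 0)
    (hS : Ssol ζ ζ' mu a R h G z) :
    Ssol ζ ζ' mu a R (π * h : Sm) (π * G : Sm) (π * z : Sm) := fun x hx => by
  obtain ⟨s1, s2, s3⟩ := hS x hx
  have e : ∀ f : Sm, Dz ζ ((π * f : Sm) : E3 → ℂ) x = (π : E3 → ℂ) x * Dz ζ (f : E3 → ℂ) x :=
    fun f => by rw [← DD_coe, DD_mul, hπ, zero_mul, zero_add, ev_mul, DD_coe]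
  simp only [e, s1, s2, s3, ev_mul]
  exact ⟨by ring, by ring, by ring⟩

/-- a real factor constant along `ζ` is removed from the amplitude -/
theorem concl_div (ho : IsOpen Ω) (hb : Bornology.IsBounded Ω) (hζ : dot ζ ζ = 0) (hζ0 : ζ ≠ 0)
    {a₁ a₂ : E3 → ℝ} (m1 : ContDiff ℝ ∞ mu₁) (m2 : ContDiff ℝ ∞ mu₂) (p1 : ∀ x, 0 < mu₁ x)
    (p2 : ∀ x, 0 < mu₂ x) (c1 : Continuous a₁) (c2 : Continuous a₂) (q1 : ∀ x, 0 < a₁ x)
    (q2 : ∀ x, 0 < a₂ x) {p : E3 → ℝ} (hp : ContDiff ℝ ∞ p) (hDp : DD ζ (ofR p hp) = 0)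
    (hp0 : ∀ᵐ x, p x ≠ 0) (h G z : Sm) (H : Concl Ω mu₁ a₁ mu₂ a₂ ζ ζ' (ofR p hp * h : Sm)
      (ofR p hp * G : Sm) (ofR p hp * z : Sm)) : Concl Ω mu₁ a₁ mu₂ a₂ ζ ζ' h G z := by
  have hm := ho.measurableSet
  obtain ⟨X₁, X₂, a1, a2, z1, z2, w1, w2⟩ := H
  have b1 : BL2 Ω X₁ := ⟨a1, z1⟩
  have b2 : BL2 Ω X₂ := ⟨a2, z2⟩
  have ia : ∀ {a : E3 → ℝ}, Continuous a → (∀ x, 0 < a x) → Continuous fun x => (a x : ℂ)⁻¹ :=
    fun ha h => (Complex.continuous_ofReal.comp ha).inv₀ fun x => Complex.ofReal_ne_zero.2 (h x).ne'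
  have s1 := EX.cc_contDiff (m1.sqrt fun x => (p1 x).ne')
  have s2 := EX.cc_contDiff (m2.sqrt fun x => (p2 x).ne')
  have n1 : ContDiff ℝ ∞ (cc fun y => (mu₁ y)⁻¹) := EX.cc_contDiff (m1.inv fun x => (p1 x).ne')
  have n2 : ContDiff ℝ ∞ (cc fun y => (mu₂ y)⁻¹) := EX.cc_contDiff (m2.inv fun x => (p2 x).ne')
  have dd : ∀ (ξ : Fin 3 → ℂ) {f : E3 → ℂ}, ContDiff ℝ ∞ f → Continuous (Dz ζ (Dz ξ f)) :=
    fun ξ f hf => (EX.Dz_contDiff (EX.Dz_contDiff hf)).continuous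
  have hα := (ia c2 q2).neg
  have hβ := dd ζ n2
  have f1 := (((((sm_cont z).mul (ia c2 q2)).sub ((sm_cont z).mul (ia c1 q1))).add
    ((sm_cont h).mul (EX.Dz_contDiff (ζ := ζ') s2).continuous)).sub
    ((sm_cont h).mul (EX.Dz_contDiff (ζ := ζ') s1).continuous)).neg
  have f2 := (((dd ζ n2).sub (dd ζ n1)).mul (sm_cont G)).add ((sm_cont h).mul
    ((s2.continuous.mul (dd ζ' n2)).sub (s1.continuous.mul (dd ζ' n1))))
  have cp : Continuous fun x => (p x : ℂ) := Complex.continuous_ofReal.comp hp.continuous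
  have ind : ∀ (f : E3 → ℂ) x, Ω.indicator ((fun x => (p x : ℂ)) * f) x = p x * Ω.indicator f x :=
    fun f x => by by_cases hx : x ∈ Ω <;> simp [hx]
  obtain ⟨Z₁, Z₂, d1, d2, e1, e2⟩ := divide hb hζ hζ0 hα hβ hp hDp hp0 b1 b2
    (BL2.indicator hb hm f1) (BL2.indicator hb hm f2)
    ((WDz_of_integrals hb hm (b2.mul hb hα) (cp.mul f1) fun ψ hψ => by
      rw [w1 ψ hψ, sub_eq_add_neg, ← integral_neg, ← integral_neg]
      congr 2 <;> funext x <;> simp only [ev_mul, ofR_apply, Pi.mul_apply, Pi.neg_apply,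
        Pi.sub_apply, Pi.add_apply] <;> ring).congr (fun _ => rfl) fun x => by rw [ind])
    ((WDz_of_integrals hb hm (b1.mul hb hβ) (cp.mul f2) fun ψ hψ => by
      rw [w2 ψ hψ]
      congr 2
      funext x
      simp only [ev_mul, ofR_apply, Pi.mul_apply, Pi.neg_apply, Pi.sub_apply, Pi.add_apply, cc]
      ring).congr (fun _ => rfl) fun x => by rw [ind])
  refine ⟨Z₁, Z₂, d1.mem, d2.mem, d1.zero, d2.zero, fun ψ hψ => ?_, fun ψ hψ =>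
    integrals_of_WDz hb hm (d1.mul hb hβ) f2 e2 hψ⟩
  rw [integrals_of_WDz hb hm (d2.mul hb hα) f1 e1 hψ, sub_eq_add_neg, ← integral_neg,
    ← integral_neg]
  congr 2 <;> funext x <;> simp only [Pi.mul_apply, Pi.neg_apply, Pi.sub_apply, Pi.add_apply] <;>
    ring

/-- passage to the limit along a sequence of data (adapted from `TL_main'`) -/
theorem lim_main (ho : IsOpen Ω) (hb : Bornology.IsBounded Ω) (hA1 : SC Ω lam₁ mu₁)
    (hA2 : SC Ω lam₂ mu₂) (p1 : ∀ x, 0 < mu₁ x) (q1 : ∀ x, 0 < lam₁ x + mu₁ x)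
    (p2 : ∀ x, 0 < mu₂ x) (q2 : ∀ x, 0 < lam₂ x + mu₂ x)
    (hbd : ∀ x ∈ frontier Ω, mu₁ x = mu₂ x ∧ lam₁ x = lam₂ x ∧
      fderiv ℝ mu₁ x = fderiv ℝ mu₂ x ∧ fderiv ℝ lam₁ x = fderiv ℝ lam₂ x)
    (hζ : dot ζ ζ = 0) (hζζ' : dot ζ ζ' = 0) (hζ' : dot ζ' ζ' ≠ 0) (hζ0 : ζ ≠ 0)
    (hcl : closure Ω ⊆ Metric.ball 0 R) {n s r nn : Sm}
    (H : Med lam₁ mu₁ (ofR lam₁ hA1.lam_smooth) (ofR mu₁ hA1.mu_smooth) n s r nn) (h G z : Sm)
    (hS : Ssol ζ ζ' mu₁ (acoef lam₁ mu₁) R h G z) (F : Ultrafilter ℕ) {t : ℕ → ℝ}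
    (ht : Tendsto t F atTop) {U : ℕ → Fin 3 → Sm} {d : ℕ → Sm} {M : ℝ}
    {u v : ℕ → Fin 3 → E3 → ℂ} {du dv : ℕ → Fin 3 → Fin 3 → E3 → ℂ} {p : ℕ → E3 → ℂ}
    (hD : ∀ k, Dt Ω lam₁ mu₁ lam₂ mu₂ ζ (U k) (d k) M (t k) (u k) (du k) (p k) (v k) (dv k))
    (hU : ∀ j, Tendsto (fun k => ∫ x in Ω, ‖(U k j : E3 → ℂ) x -
      (aU ζ ζ' n r h G j : E3 → ℂ) x‖ ^ 2) F (𝓝 0))
    (hd : Tendsto (fun k => ∫ x in Ω, ‖(d k : E3 → ℂ) x -
      ((ofR mu₁ hA1.mu_smooth * z * nn : Sm) : E3 → ℂ) x‖ ^ 2) F (𝓝 0)) :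
    Concl Ω mu₁ (acoef lam₁ mu₁) mu₂ (acoef lam₂ mu₂) ζ ζ' h G z := by
  have mv : ∀ k j, MemLp (v k j) 2 (volume.restrict Ω) := fun k j =>
    ((hD k).hv j).val_mem.restrict _
  have mdv : ∀ k i j, MemLp (dv k i j) 2 (volume.restrict Ω) := fun k i j =>
    (((hD k).hv j).der_mem i).restrict _
  have mq : ∀ k, MemLp (fun x => ∑ i, dv k i i x) 2 (volume.restrict Ω) := fun k =>
    memLp_finsetSum _ fun i _ => mdv k i i
  choose V hV hVl using fun j => weak_limit_L2 (μ := volume.restrict Ω) F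
    (fun k x => (ex ζ (t k) : E3 → ℂ) x * v k j x)
    (fun k => TL.memLp_mul_cont hb (sm_cont _) (mv k j)) M (fun k => (hD k).cv j)
  obtain ⟨Q, hQ, hQl⟩ := weak_limit_L2 (μ := volume.restrict Ω) F
    (fun k x => (ex ζ (t k) : E3 → ℂ) x * ∑ i, dv k i i x)
    (fun k => TL.memLp_mul_cont hb (sm_cont _) (mq k)) M (fun k => (hD k).cq)
  have hi : Tendsto (fun k => (t k)⁻¹) F (𝓝 0) := tendsto_inv_atTop_zero.comp ht
  have hinv : Tendsto (fun k => ((t k : ℝ) : ℂ)⁻¹) F (𝓝 0) := by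
    simpa only [Function.comp_def, Complex.ofReal_inv, Complex.ofReal_zero] using
      (Complex.continuous_ofReal.tendsto 0).comp hi
  have hne : ∀ᶠ k in (F : Filter ℕ), ((t k : ℝ) : ℂ) ≠ 0 :=
    (ht.eventually_gt_atTop 0).mono fun k hk => Complex.ofReal_ne_zero.2 hk.ne'
  have hsq : Tendsto (fun k => M / (t k) ^ 2) F (𝓝 0) := by
    simpa [div_eq_mul_inv] using (hi.pow 2).const_mul M
  have st : ∀ {w : ℕ → E3 → ℂ} {A : ℕ → Sm} {B : Sm} (hw : ∀ k, MemLp (w k) 2 (volume.restrict Ω)),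
      (∀ k, ∫ x in Ω, ‖(ex ζ (t k) : E3 → ℂ) x * w k x - (A k : E3 → ℂ) x‖ ^ 2 ≤ M / t k ^ 2) →
      Tendsto (fun k => ∫ x in Ω, ‖(A k : E3 → ℂ) x - (B : E3 → ℂ) x‖ ^ 2) F (𝓝 0) → ∀ η,
      Tendsto (fun k => Tm Ω hb (w k) (hw k) (ex ζ (t k) * η)) F (𝓝 (om Ω hb (B * η))) := by
    intro w A B hw h1 h2 η
    refine strong_lim hb hw (by simpa using (hsq.const_mul 2).add (h2.const_mul 2)) (fun k => ?_) η
    have := sq_add_le ((TL.memLp_mul_cont hb (sm_cont (ex ζ (t k))) (hw k)).sub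
      (cont_memLp_restrict hb (sm_cont (A k)))) ((cont_memLp_restrict hb (sm_cont (A k))).sub
      (cont_memLp_restrict hb (sm_cont B)))
    simp only [Pi.sub_apply, sub_add_sub_cancel] at this
    linarith [h1 k]
  have hVv : ∀ j η, Tendsto (fun k => Tm Ω hb (v k j) (mv k j) (ex ζ (t k) * η)) F
      (𝓝 (Tm Ω hb (V j) (hV j) η)) := fun j η =>
    weak_lim hb (fun k => mv k j) (hV j) (hVl j) η
  have hQv : ∀ η, Tendsto (fun k => ∑ i, Tm Ω hb (dv k i i) (mdv k i i) (ex ζ (t k) * η)) F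
      (𝓝 (Tm Ω hb Q hQ η)) := fun η =>
    (weak_lim hb (w := fun k x => ∑ i, dv k i i x) mq hQ hQl η).congr fun k =>
      (sum_Tm hb (mdv k) (mq k) (Eventually.of_forall fun x => rfl) _).symm
  have hVu := fun j => st (fun k => (hD k).mu j) (fun k => (hD k).cu j) (hU j)
  have hQu : ∀ η, Tendsto (fun k => ∑ i, Tm Ω hb (du k i i) ((hD k).mdu i i) (ex ζ (t k) * η)) F
      (𝓝 (om Ω hb ((ofR mu₁ hA1.mu_smooth * z * nn) * η))) := fun η =>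
    (st (fun k => (hD k).mp) (fun k => (hD k).cp) hd η).congr fun k =>
      (sum_Tm hb (hD k).mdu (hD k).mp (hD k).div _).symm
  have hIv : ∀ k, IBP (fun j => Tm Ω hb (v k j) (mv k j))
      (fun i j => Tm Ω hb (dv k i j) (mdv k i j)) ⊤ := fun k i j η _ =>
    ch10_ibp hb ((hD k).hv j) i η
  have hIu : ∀ k, IBP (fun j => Tm Ω hb (u k j) ((hD k).mu j))
      (fun i j => Tm Ω hb (du k i j) ((hD k).mdu i j)) (TL.IO Ω) := fun k i j η hη =>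
    (hD k).ibpu i j η hη
  have hCC := fun k g => hC_of hb hA1.lam_smooth hA1.mu_smooth hA2.lam_smooth hA2.mu_smooth
    (hD k).mdu (mdv k) (hD k).tr g
  have hdm := IO_of_bd (Ω := Ω) hA1.mu_smooth hA2.mu_smooth (fun x hx => (hbd x hx).1)
  have hPdm := P_IO_of_bd (Ω := Ω) hA1.mu_smooth hA2.mu_smooth (fun x hx => (hbd x hx).2.2.1)
  have hee := fun k i => P_ex ζ (t k) i
  have hZ : ∀ η, ∑ j, ζ j * Tm Ω hb (V j) (hV j) η = 0 := fun η =>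
    lim_Z (Vv := fun j => Tm Ω hb (V j) (hV j)) hinv hne hee hIv hVv hQv η
  have hT1 := lim_T1 (Vv := fun j => Tm Ω hb (V j) (hV j))
      (Vu := fun j => (om Ω hb).comp (LinearMap.mulLeft ℂ (aU ζ ζ' n r h G j)))
      (Qu := (om Ω hb).comp (LinearMap.mulLeft ℂ (ofR mu₁ hA1.mu_smooth * z * nn)))
      hinv hne hζ hee hIv hIu hCC hdm hVv hQv hVu hQu
  have hT2 := lim_T2 (Vv := fun j => Tm Ω hb (V j) (hV j))
      (Vu := fun j => (om Ω hb).comp (LinearMap.mulLeft ℂ (aU ζ ζ' n r h G j)))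
      (Qu := (om Ω hb).comp (LinearMap.mulLeft ℂ (ofR mu₁ hA1.mu_smooth * z * nn)))
      hinv hne hζ hee hIv hIu hCC hdm hPdm hVv hQv hVu hQu
  simp only [LinearMap.comp_apply, LinearMap.mulLeft_apply] at hT1 hT2
  exact TL.TLfin_of TL.TLfin3 UNIQ Ω hb lam₁ mu₁ lam₂ mu₂ hA1.lam_smooth hA1.mu_smooth
    hA2.lam_smooth hA2.mu_smooth ho p1 q1 p2 q2 hbd ζ ζ' R hζ hζζ' hζ' hζ0 hcl h G z (sm_cd h)
    (sm_cd G) (sm_cd z) hS V Q hV hQ (fun j => aU ζ ζ' n r h G j) (ofR mu₁ hA1.mu_smooth * z * nn)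
    (fun j => aU_coe H ζ ζ' h G j) (ad_coe H z) hZ
    (fun ψ => T1_simp hζ hζζ' n r h G _ _ _ _ _ _ ψ hZ (hT1 ψ)) hT2

theorem fam_main (ho : IsOpen Ω) (hb : Bornology.IsBounded Ω) (h1 : SC Ω lam₁ mu₁)
    (h2 : SC Ω lam₂ mu₂) (p1 : ∀ x, 0 < mu₁ x) (q1 : ∀ x, 0 < lam₁ x + mu₁ x)
    (p2 : ∀ x, 0 < mu₂ x) (q2 : ∀ x, 0 < lam₂ x + mu₂ x) (hF : Fam N Ω lam₁ mu₁ lam₂ mu₂)
    (hbd : ∀ x ∈ frontier Ω, mu₁ x = mu₂ x ∧ lam₁ x = lam₂ x ∧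
      fderiv ℝ mu₁ x = fderiv ℝ mu₂ x ∧ fderiv ℝ lam₁ x = fderiv ℝ lam₂ x)
    (hζ : dot ζ ζ = 0) (hζζ' : dot ζ ζ' = 0) (hζ' : dot ζ' ζ' ≠ 0) (hζ0 : ζ ≠ 0) (hR : 0 < R)
    (hcl : closure Ω ⊆ Metric.ball 0 R) (h G z : Sm)
    (hS : Ssol ζ ζ' mu₁ (acoef lam₁ mu₁) (4 * R) h G z) :
    Concl Ω mu₁ (acoef lam₁ mu₁) mu₂ (acoef lam₂ mu₂) ζ ζ' h G z := by
  obtain ⟨n, s, r, nn, H⟩ := exists_Med h1.lam_smooth h1.mu_smooth p1 q1
  obtain ⟨e, he0, he⟩ := exists_dir ζ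
  obtain ⟨σ, hσ, hσx⟩ : ∃ σ : Sm, DD ζ σ = 0 ∧ ∀ x, (σ : E3 → ℂ) x = (⟪e, x⟫_ℝ : ℝ) :=
    ⟨zS fun i => e i, by rw [DD_zS, ← K_zero]; exact congrArg K he, fun x => by
      simp [zS, zx, PiLp.inner_apply, mul_comm]⟩
  have hk : ∀ k : ℕ, DD ζ (σ ^ k) = 0 := fun k => by
    induction k with
    | zero => exact DD_one ζ
    | succ k ih => rw [pow_succ, DD_mul, ih, hσ, zero_mul, mul_zero, add_zero]
  have eU : ∀ (π : Sm) j, aU ζ ζ' n r (π * h) (π * G) j = π * aU ζ ζ' n r h G j := fun π j => by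
    unfold aU; ring
  obtain ⟨M, T, hdata⟩ := data_fam ho hb h1 h2 p1 q1 p2 q2 hF hbd hζ hζ0 hR hcl _ _ fun k : Fin N =>
    transport_of p1 q1 H hζ hζζ' _ _ _ (ssol_mul (σ ^ (k : ℕ)) (hk k) hS)
  choose c hc u du p v dv hD using fun k : ℕ =>
    (hdata (T + k) (le_add_of_nonneg_right k.cast_nonneg)).2
  obtain ⟨c₀, hc₀, hl⟩ := (isCompact_sphere (0 : Fin N → ℝ) 1).ultrafilter_le_nhds'
    ((Ultrafilter.of (atTop : Filter ℕ)).map c) (Ultrafilter.mem_map.2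
      (univ_mem' fun k => mem_sphere_zero_iff_norm.2 (hc k)))
  have hp : ContDiff ℝ ∞ fun x : E3 => ∑ k : Fin N, c₀ k * ⟪e, x⟫_ℝ ^ (k : ℕ) :=
    ContDiff.sum fun k _ => contDiff_const.mul ((contDiff_const.inner ℝ contDiff_id).pow _)
  have hP : ofR _ hp = ∑ k : Fin N, K (c₀ k) * σ ^ (k : ℕ) := Subtype.ext (funext fun x => by
    simp [ev_sum, ofR_apply, hσx, K_apply])
  have hDp : DD ζ (ofR _ hp) = 0 := by simp [hP, DD_Kmul, hk]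
  refine concl_div ho hb hζ hζ0 h1.mu_smooth h2.mu_smooth p1 p2
    (acoef_contDiff h1.lam_smooth h1.mu_smooth p1 q1).continuous
    (acoef_contDiff h2.lam_smooth h2.mu_smooth p2 q2).continuous (fun x => acoef_pos (p1 x) (q1 x))
    (fun x => acoef_pos (p2 x) (q2 x)) hp hDp (poly_ae he0 fun h0 => by simp [h0] at hc₀) h G z
    (lim_main ho hb h1 h2 p1 q1 p2 q2 hbd hζ hζζ' hζ' hζ0
      (hcl.trans (Metric.ball_subset_ball (by linarith))) H _ _ _ (ssol_mul _ hDp hS)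
      (Ultrafilter.of atTop) ((tendsto_atTop_add_const_left _ T
        tendsto_natCast_atTop_atTop).mono_left (Ultrafilter.of_le _)) hD (fun j => ?_) ?_)
  · simp only [eU]
    simpa only [hP, Finset.sum_mul, mul_assoc] using
      sum_lim hb hl fun k : Fin N => σ ^ (k : ℕ) * aU ζ ζ' n r h G j
  · simpa only [hP, Finset.sum_mul, Finset.mul_sum, mul_assoc, mul_left_comm (K _)] using
      sum_lim hb hl fun k : Fin N => ofR mu₁ h1.mu_smooth * (σ ^ (k : ℕ) * z) * nn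

/-- uniqueness from the family property (the assembly follows `TL_of'` and `interior`) -/
theorem fam_unique (ho : IsOpen Ω) (hb : Bornology.IsBounded Ω)
    (hden : frontier Ω ⊆ closure {x | ∃ n : E3, ‖n‖ = 1 ∧ BD.Rough.TanAt Ω x n})
    (h1 : SC Ω lam₁ mu₁) (h2 : SC Ω lam₂ mu₂) (p1 : ∀ x, 0 < mu₁ x)
    (q1 : ∀ x, 0 < lam₁ x + mu₁ x) (p2 : ∀ x, 0 < mu₂ x) (q2 : ∀ x, 0 < lam₂ x + mu₂ x)
    (hF : Fam N Ω lam₁ mu₁ lam₂ mu₂) : ∀ x ∈ Ω, lam₁ x = lam₂ x ∧ mu₁ x = mu₂ x := by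
  have hbd := bd_fam ho hb hden h1 h2 hF
  have a1 := acoef_contDiff h1.lam_smooth h1.mu_smooth p1 q1
  have a2 := acoef_contDiff h2.lam_smooth h2.mu_smooth p2 q2
  intro x hx
  have hT : TLS Ω mu₁ (acoef lam₁ mu₁) mu₂ (acoef lam₂ mu₂) := by
    intro ζ ζ' R hζ hζζ' hζ' hcl h G z hh hG hz hS
    by_cases hζ0 : ζ = 0
    · subst hζ0
      exact concl_zero ho hb a1.continuous a2.continuous (fun x => (acoef_pos (p1 x) (q1 x)).ne')
        (fun x => (acoef_pos (p2 x) (q2 x)).ne') (h1.mu_smooth.sqrt fun x => (p1 x).ne')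
        (h2.mu_smooth.sqrt fun x => (p2 x).ne') hh.continuous hz.continuous
    have hR := Metric.pos_of_mem_ball (hcl (subset_closure hx))
    exact fam_main ho hb h1 h2 p1 q1 p2 q2 hF hbd hζ hζζ' hζ' hζ0 (R := R / 4) (by linarith)
      (hcl.trans (Metric.ball_subset_ball (by linarith))) ⟨h, hh⟩ ⟨G, hG⟩ ⟨z, hz⟩
      (by rwa [show 4 * (R / 4) = R by ring])
  obtain ⟨f1, f2⟩ := CP1 Ω mu₁ (acoef lam₁ mu₁) mu₂ (acoef lam₂ mu₂) ho hb h1.mu_smooth a1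
    h2.mu_smooth a2 p1 (fun x => acoef_pos (p1 x) (q1 x)) p2 (fun x => acoef_pos (p2 x) (q2 x))
    (fun x => acoef_mul (p1 x) (q1 x)) (fun x => acoef_mul (p2 x) (q2 x))
    (fun x hx => by
      obtain ⟨b1, b2, b3, b4⟩ := hbd x hx
      exact ⟨b1, b3, by unfold acoef; rw [b1, b2], fderiv_acoef_congr
        (h1.lam_smooth.differentiable (by simp) x) (h1.mu_smooth.differentiable (by simp) x)
        (h2.lam_smooth.differentiable (by simp) x) (h2.mu_smooth.differentiable (by simp) x)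
        (p1 x) (q1 x) b2 b1 b4 b3⟩) hT x hx
  exact ⟨lam_eq_of_acoef_eq (p1 x) (q1 x) (q2 x) f1 f2, f1⟩

end Vale.Agent.N136
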