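import Vale.Agent.N136.Lim
import Vale.Agent.N136.Defs
import Vale.Agent.P136S.Ti

set_option linter.all false

/-! From finitely many linear conditions to the family property. -/

open MeasureTheory
open scoped ContDiff

namespace Vale.Agent.N136

open Vale.Agent.P136.Elasticity Vale.Agent.P136S

variable {Ω : Set E3} {lam mu l₁ m₁ l₂ m₂ : E3 → ℝ}

theorem Adm.upTo (hΩ : SmoothDomain Ω) (h : Adm Ω lam mu) : AdmissibleUpTo Ω lam mu :=
  ⟨of_closure hΩ.isOpen hΩ.isBounded h.1, of_closure hΩ.isOpen hΩ.isBounded h.2.1, h.2.2⟩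

theorem Adm.ext (hΩ : SmoothDomain Ω) (h : Adm Ω lam mu) : ∃ L M, Admissible Ω L M ∧
    (∀ x, 0 < M x) ∧ (∀ x, 0 < L x + M x) ∧ TraceDN Ω L M = TraceDN Ω lam mu ∧
    ∀ x ∈ closure Ω, L x = lam x ∧ M x = mu x := by
  obtain ⟨L, M, a, -, c⟩ := (h.upTo hΩ).ext' hΩ
  obtain ⟨L', M', V, -, hV, s1, s2, p, q, e⟩ := P136.Rough.N0' hΩ.isBounded a.1 a.2.1
    fun x hx => ⟨(a.2.2 x hx).1, by linarith [(a.2.2 x hx).1, (a.2.2 x hx).2]⟩
  have e1 := fun x hx => (e x (hV hx)).1.trans (c x hx).1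
  have e2 := fun x hx => (e x (hV hx)).2.trans (c x hx).2
  refine ⟨L', M', ⟨s1, s2, fun x hx => ?_⟩, p, q, ?_, fun x hx => ⟨e1 x hx, e2 x hx⟩⟩
  · rw [e1 x hx, e2 x hx]
    exact h.2.2 x hx
  · funext f g r
    simp only [TraceDN, WeakSol, form_congr hΩ.isOpen e1 e2]

theorem fin_test {V Q : Type*} [AddCommGroup V] [Module ℝ V] [AddCommGroup Q] [Module ℝ Q]
    [FiniteDimensional ℝ Q] (π : V →ₗ[ℝ] Q) : ∃ (m : ℕ) (q : Fin m → V), ∀ ℓ : V →ₗ[ℝ] ℝ,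
      (∀ g, π g = 0 → ℓ g = 0) → (∀ j, ℓ (q j) = 0) → ∀ g, ℓ g = 0 := by
  obtain ⟨m, s, hs⟩ := Module.Finite.exists_fin (R := ℝ) (M := LinearMap.range π)
  choose q hq using fun j => (s j).2
  refine ⟨m, q, fun ℓ h1 h2 g => ?_⟩
  obtain ⟨c, hc⟩ := (Submodule.mem_span_range_iff_exists_fun ℝ).1
    (hs ▸ Submodule.mem_top (x := (⟨π g, g, rfl⟩ : LinearMap.range π)))
  simpa [h2] using h1 (g - ∑ j, c j • q j)
    (by simpa [hq, sub_eq_zero] using (congrArg Subtype.val hc).symm)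

/-- smooth fields -/
def SF : Submodule ℝ (Fin 3 → E3 → ℝ) where
  carrier := {f | ∀ j, Smooth (f j)}
  add_mem' hf hg j := ContDiff.add (hf j) (hg j)
  zero_mem' _ := contDiff_const
  smul_mem' c _ hf j := ContDiff.const_smul c (hf j)

section

variable (hΩ : SmoothDomain Ω) (h : Admissible Ω lam mu)

/-- the solution of the Dirichlet problem -/
noncomputable def sol (F : H1 Ω) : H1 Ω :=
  (P136.H969.existsUnique_public hΩ.isOpen hΩ.isBounded h F F).exists.choose_spec.choose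

theorem sol_spec (F : H1 Ω) : SameTrace (sol hΩ h F) F ∧ WeakSol lam mu (sol hΩ h F) :=
  (P136.H969.existsUnique_public hΩ.isOpen hΩ.isBounded h F F).exists.choose_spec.choose_spec.imp_right
    And.left

/-- the bilinear form of the displacement-to-traction map -/
noncomputable def bt (F G : H1 Ω) : ℝ := form Ω lam mu (sol hΩ h F).der G.der

theorem bt_dn (F G : H1 Ω) : DN Ω lam mu F G (bt hΩ h F G) :=
  ⟨_, (sol_spec hΩ h F).1, (sol_spec hΩ h F).2, rfl⟩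

theorem bt_symm (F G : H1 Ω) : bt hΩ h F G = bt hΩ h G F :=
  ((form_tr hΩ h (sol_spec hΩ h F).2 (sol_spec hΩ h G).1).symm.trans
    (P136.BD.form_symm _ _ _ _ _)).trans (form_tr hΩ h (sol_spec hΩ h G).2 (sol_spec hΩ h F).1)

theorem bt_sum {n : ℕ} (c : Fin n → ℝ) (G : Fin n → P136.H1 Ω) {f g : P136.H1 Ω} {r : ℝ}
    (hf : f.der = fun i j x => ∑ k, c k * (G k).der i j x) (hr : P136.DN Ω lam mu f g r) :
    r = ∑ k, c k * bt hΩ h (P136.Bridge.ofH1 (G k)) (P136.Bridge.ofH1 g) := by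
  rw [(P136.H969.existsUnique_public hΩ.isOpen hΩ.isBounded h _ _).unique
    ((P136.Bridge.DN_iff _ _ (P136.Bridge.ofH1 f) (P136.Bridge.ofH1 g) r).2 hr) (bt_dn hΩ h _ _)]
  simp only [bt_symm hΩ h _ (P136.Bridge.ofH1 g)]
  refine (P136.BD.form_symm _ _ _ _ f.der).trans ?_
  rw [hf, form_sum hΩ.isOpen.measurableSet hΩ.isBounded h.1.continuous h.2.1.continuous c
    (fun k => (G k).der_mem) (sol hΩ h _).der_mem]
  exact Finset.sum_congr rfl fun k _ => congrArg _ (P136.BD.form_symm _ _ _ _ _)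

/-- the traction as a linear functional on smooth fields -/
noncomputable def ell (F : H1 Ω) : SF →ₗ[ℝ] ℝ where
  toFun g := bt hΩ h F (sH hΩ g.2)
  map_add' f g := by
    refine Eq.trans ?_ (P136.BD.Rough.form_add_right hΩ.isOpen.measurableSet hΩ.isBounded
      h.1.continuous h.2.1.continuous (sol hΩ h F).der_mem (sH hΩ f.2).der_mem (sH hΩ g.2).der_mem)
    refine congrArg (P136.form Ω lam mu (sol hΩ h F).der) (a₁ := (sH hΩ (f + g).2).der)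
      (funext fun i => funext fun j => funext fun x => ?_)
    exact congrArg (fun L : E3 →L[ℝ] ℝ => L _) (fderiv_add (ContDiff.differentiable (f.2 j)
      (by simp) x) (ContDiff.differentiable (g.2 j) (by simp) x))
  map_smul' c g := by
    have e : ∀ i j x, (sH hΩ (c • g).2).der i j x = c * (sH hΩ g.2).der i j x := fun i j x =>
      P136.BD.pd_const_mul (ContDiff.differentiable (g.2 j) (by simp) x) c i
    simp only [bt, form, integ, e, RingHom.id_apply, smul_eq_mul, ← integral_const_mul,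
      Fin.sum_univ_three]
    exact congrArg _ (funext fun x => by ring)

theorem ell_symm (f g : SF) : ell hΩ h (sH hΩ f.2) g = ell hΩ h (sH hΩ g.2) f := bt_symm hΩ h _ _

theorem ell_tr (f g : SF) : TraceDN Ω lam mu f g (ell hΩ h (sH hΩ f.2) g) :=
  (traceDN_iff hΩ h (sH_trace hΩ f.2) (sH_trace hΩ g.2) _).2 (bt_dn hΩ h _ _)

end

theorem fam_of (hΩ : SmoothDomain Ω) (a₁ : Admissible Ω l₁ m₁) (a₂ : Admissible Ω l₂ m₂)
    {Q : Type*} [AddCommGroup Q] [Module ℝ Q] [FiniteDimensional ℝ Q] (π : SF →ₗ[ℝ] Q)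
    (H : ∀ g, π g = 0 → ∀ f : SF, (ell hΩ a₁ (sH hΩ f.2) - ell hΩ a₂ (sH hΩ f.2)) g = 0) :
    ∃ n, Fam n Ω l₁ m₁ l₂ m₂ := by
  obtain ⟨m, q, hq⟩ := fin_test π
  obtain ⟨L, hL⟩ : ∃ L : P136.H1 Ω → SF →ₗ[ℝ] ℝ, ∀ F g, L F g =
      bt hΩ a₁ (P136.Bridge.ofH1 F) (sH hΩ g.2) - bt hΩ a₂ (P136.Bridge.ofH1 F) (sH hΩ g.2) :=
    ⟨fun F => ell hΩ a₁ (P136.Bridge.ofH1 F) - ell hΩ a₂ (P136.Bridge.ofH1 F), fun _ _ => rfl⟩
  have K : ∀ F g, π g = 0 → L F g = 0 := fun F g hg => by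
    rw [hL, bt_symm hΩ a₁, bt_symm hΩ a₂, sub_eq_zero]
    exact form_ext hΩ a₁ a₂ (fun f hf => ((ell_symm hΩ a₁ g ⟨f, hf⟩).trans
      (sub_eq_zero.1 (H g hg ⟨f, hf⟩))).trans (ell_symm hΩ a₂ ⟨f, hf⟩ g)) _
  have gd : ∀ {n : ℕ} (c : Fin n → ℝ) (G : Fin n → P136.H1 Ω), (∀ j, ∑ k, c k * L (G k) (q j) = 0) →
      Good Ω l₁ m₁ l₂ m₂ (fun i j x => ∑ k, c k * (G k).der i j x)
        fun j x => ∑ k, c k * (G k).val j x := by
    rintro n c G h f g hf - ⟨γ, hγ, hg⟩ r₁ r₂ d₁ d₂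
    have := hq (∑ k, c k • L (G k)) (fun g hg => by simp [K _ g hg]) (by simpa using h) ⟨γ, hγ⟩
    rw [bt_sum hΩ a₁ c G hf d₁, bt_sum hΩ a₂ c G hf d₂, ← sub_eq_zero, ← this,
      ← Finset.sum_sub_distrib, LinearMap.sum_apply]
    refine Finset.sum_congr rfl fun k _ => ?_
    rw [LinearMap.smul_apply, hL, smul_eq_mul, mul_sub]
    simp only [bt, show (P136.Bridge.ofH1 g).der = _ from hg]
    rfl
  refine ⟨m + m + 1, fun F F' => ?_⟩
  obtain ⟨c, h1, h2⟩ := (Submodule.ne_bot_iff _).1 (LinearMap.ker_ne_bot_of_finrank_lt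
    (f := Fintype.linearCombination ℝ fun k => (fun j => L (F k) (q j), fun j => L (F' k) (q j)))
    (by simp))
  rw [LinearMap.mem_ker, Fintype.linearCombination_apply] at h1
  refine ⟨‖c‖⁻¹ • c, norm_smul_inv_norm h2, gd _ _ fun j => ?_, gd _ _ fun j => ?_⟩
  · simpa [Prod.fst_sum, mul_assoc, ← Finset.mul_sum, h2] using congrFun (congrArg Prod.fst h1) j
  · simpa [Prod.snd_sum, mul_assoc, ← Finset.mul_sum, h2] using congrFun (congrArg Prod.snd h1) j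

/-- reduction to a bilinear form on smooth fields -/
theorem reduce (hΩ : SmoothDomain Ω) (h₁ : Adm Ω l₁ m₁) (h₂ : Adm Ω l₂ m₂) :
    ∃ β : SF → SF →ₗ[ℝ] ℝ, (∀ f g, β f g = β g f) ∧ (∀ f g : SF, ∃ r₁ r₂, TraceDN Ω l₁ m₁ f g r₁ ∧
      TraceDN Ω l₂ m₂ f g r₂ ∧ β f g = r₁ - r₂) ∧
      ∀ (Q : Type) [AddCommGroup Q] [Module ℝ Q] [FiniteDimensional ℝ Q] (π : SF →ₗ[ℝ] Q),
        (∀ g, π g = 0 → ∀ f, β f g = 0) → ∀ x ∈ closure Ω, l₁ x = l₂ x ∧ m₁ x = m₂ x := by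
  obtain ⟨L₁, M₁, a₁, p₁, q₁, b₁, c₁⟩ := h₁.ext hΩ
  obtain ⟨L₂, M₂, a₂, p₂, q₂, b₂, c₂⟩ := h₂.ext hΩ
  refine ⟨fun f => ell hΩ a₁ (sH hΩ f.2) - ell hΩ a₂ (sH hΩ f.2), fun f g => ?_,
    fun f g => ⟨_, _, b₁ ▸ ell_tr hΩ a₁ f g, b₂ ▸ ell_tr hΩ a₂ f g, rfl⟩, fun Q _ _ _ π H x hx => ?_⟩
  · simp only [LinearMap.sub_apply, ell_symm hΩ _ f g]
  obtain ⟨n, hF⟩ := fam_of hΩ a₁ a₂ π H
  have K := fam_unique hΩ.isOpen hΩ.isBounded (P136.Rough.smooth_tangentDomain hΩ).dense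
    (P136.H969.sc_public hΩ.isOpen hΩ.isBounded a₁) (P136.H969.sc_public hΩ.isOpen hΩ.isBounded a₂)
    p₁ q₁ p₂ q₂ hF
  rw [← (c₁ x hx).1, ← (c₁ x hx).2, ← (c₂ x hx).1, ← (c₂ x hx).2]
  exact ⟨Set.EqOn.closure (fun y hy => (K y hy).1) a₁.1.continuous a₂.1.continuous hx,
    Set.EqOn.closure (fun y hy => (K y hy).2) a₁.2.1.continuous a₂.2.1.continuous hx⟩

/-- data restricted by finitely many linear conditions -/
theorem codim (hΩ : SmoothDomain Ω) (h₁ : Adm Ω l₁ m₁) (h₂ : Adm Ω l₂ m₂) {N : ℕ}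
    (a : Fin N → (Fin 3 → E3 → ℝ) →ₗ[ℝ] ℝ) (H : ∀ f g : Fin 3 → E3 → ℝ, (∀ j, Smooth (f j)) →
      (∀ j, Smooth (g j)) → (∀ k, a k f = 0) → (∀ k, a k g = 0) →
      ∀ r₁ r₂, TraceDN Ω l₁ m₁ f g r₁ → TraceDN Ω l₂ m₂ f g r₂ → r₁ = r₂) :
    ∀ x ∈ closure Ω, l₁ x = l₂ x ∧ m₁ x = m₂ x := by
  obtain ⟨β, s, t, fin⟩ := reduce hΩ h₁ h₂
  obtain ⟨m, q, hq⟩ := fin_test ((LinearMap.pi a).comp SF.subtype)
  refine fin _ (((LinearMap.pi a).comp SF.subtype).prod (LinearMap.pi fun j => β (q j)))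
    fun g hg f => (s f g).trans (hq (β g) (fun f hf => ?_)
      (fun j => (s _ _).trans (congrFun (congrArg Prod.snd hg) j)) f)
  obtain ⟨r₁, r₂, d₁, d₂, e⟩ := t g f
  rw [e, H g f g.2 f.2 (congrFun (congrArg Prod.fst hg)) (congrFun hf) _ _ d₁ d₂, sub_self]

/-- difference of finite rank -/
theorem rank (hΩ : SmoothDomain Ω) (h₁ : Adm Ω l₁ m₁) (h₂ : Adm Ω l₂ m₂) {N : ℕ}
    (a b : Fin N → (Fin 3 → E3 → ℝ) → ℝ) (H : ∀ f g : Fin 3 → E3 → ℝ, (∀ j, Smooth (f j)) →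
      (∀ j, Smooth (g j)) → ∀ r₁ r₂, TraceDN Ω l₁ m₁ f g r₁ → TraceDN Ω l₂ m₂ f g r₂ →
      r₁ - r₂ = ∑ k, a k f * b k g) : ∀ x ∈ closure Ω, l₁ x = l₂ x ∧ m₁ x = m₂ x := by
  obtain ⟨β, s, t, fin⟩ := reduce hΩ h₁ h₂
  have e : ∀ f g : SF, β f g = Fintype.linearCombination ℝ (fun k => b k g) fun k => a k f :=
    fun f g => by
      obtain ⟨r₁, r₂, d₁, d₂, e⟩ := t f g
      exact e.trans (H f g f.2 g.2 _ _ d₁ d₂)
  obtain ⟨S, hS, e'⟩ := (Submodule.fg_span_iff_fg_span_finset_subset (R := ℝ)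
    (Set.range fun (f : SF) k => a k f)).1 (IsNoetherian.noetherian _)
  choose φ hφ using fun v : S => hS v.2
  refine fin _ (LinearMap.pi fun v => β (φ v)) fun g hg f => (e f g).trans ?_
  refine (Submodule.span_le (p := LinearMap.ker _)).2 (fun v hv => ?_)
    (e'.le (Submodule.subset_span ⟨f, rfl⟩))
  exact (congrArg _ (hφ ⟨v, hv⟩).symm).trans ((e _ g).symm.trans (congrFun hg ⟨v, hv⟩))

end Vale.Agent.N136
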